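import Crest.Agent.X212.Lev33.St
import Crest.Agent.X212.Lad50.PL
import Crest.Agent.X212.Rg3.Com
import Crest.Agent.X212.Lev33.Nice
import Crest.Agent.X212.Ann83.Main

-- ▼ part X212/Lvf3/Reg
section

/-!
# Row 212, layer T, LEVF (helper3), part 1: regular levels of PL functions are flat

`fl_of_chart`, `fl_congr` (locality of `Fl`), `fl_of_shear`, `exists_bad`: off a countable set of
values every level of a locally PL function is a flat two-sided surface.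
-/

set_option autoImplicit false

open Set Metric Topology Filter Crest.Agent.R096.Ce_537 Crest.Agent.X212.Prd34
  Crest.Agent.X212.Lev33 Crest.Agent.X212.Lad50

namespace Crest.Agent.X212.Lvf3

/-- flatness from an explicit chart -/
theorem fl_of_chart {A B N : Set V} {x : V} {f g : V → V} (hf : PLOn f (cube 3)) (hg : PLOn g N)
    (hm : MapsTo f (cube 3) N) (li : ∀ p ∈ cube 3, g (f p) = p) (h0 : f 0 = x)
    (ri : ∀ᶠ y in 𝓝 x, g y ∈ cube 3 ∧ f (g y) = y)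
    (hA : ∀ p ∈ cube 3, f p ∈ A ↔ 0 ≤ p 2) (hB : ∀ p ∈ cube 3, f p ∈ B ↔ p 2 ≤ 0) :
    Fl A B x := by
  refine ⟨f '' cube 3, ⟨f, g, hf, hg.mono hm.image_subset, fun p hp => ⟨p, hp, rfl⟩, ?_, li, ?_⟩,
    h0, ?_, ?_, ?_⟩
  · rintro _ ⟨p, hp, rfl⟩
    rw [li p hp]; exact hp
  · rintro _ ⟨p, hp, rfl⟩
    rw [li p hp]
  · filter_upwards [ri] with y hy
    exact ⟨g y, hy.1, hy.2⟩
  · ext y
    constructor
    · rintro ⟨⟨p, hp, rfl⟩, h⟩
      exact ⟨p, ⟨hp, (hA p hp).1 h⟩, rfl⟩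
    · rintro ⟨p, ⟨hp, h⟩, rfl⟩
      exact ⟨⟨p, hp, rfl⟩, (hA p hp).2 h⟩
  · ext y
    constructor
    · rintro ⟨⟨p, hp, rfl⟩, h⟩
      exact ⟨p, ⟨hp, (hB p hp).1 h⟩, rfl⟩
    · rintro ⟨p, ⟨hp, h⟩, rfl⟩
      exact ⟨⟨p, hp, rfl⟩, (hB p hp).2 h⟩

/-- reading a side in a chart -/
theorem mem_iff_of_chart {C A H : Set V} (e : PLEquiv (cube 3) C)
    (eA : C ∩ A = e.f '' (cube 3 ∩ H)) {q : V} (hq : q ∈ cube 3) : e.f q ∈ A ↔ q ∈ H := by
  constructor
  · intro h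
    have : e.f q ∈ C ∩ A := ⟨e.mf hq, h⟩
    rw [eA] at this
    obtain ⟨p, hp, hpq⟩ := this
    rw [← e.injOn hp.1 hq hpq]; exact hp.2
  · intro h
    have : e.f q ∈ C ∩ A := by rw [eA]; exact ⟨q, ⟨hq, h⟩, rfl⟩
    exact this.2

/-- **locality of `Fl`** -/
theorem fl_congr {A B A' B' : Set V} {x : V} (h : Fl A B x)
    (hA : ∀ᶠ y in 𝓝 x, (y ∈ A' ↔ y ∈ A)) (hB : ∀ᶠ y in 𝓝 x, (y ∈ B' ↔ y ∈ B)) :
    Fl A' B' x := by
  obtain ⟨C, e, h0, hC, eA, eB⟩ := h
  have z : (0 : V) ∈ cube 3 := mem_closedBall_self zero_le_one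
  have c0 : ContinuousAt e.f 0 := e.pf.1.continuousAt (closedBall_mem_nhds 0 one_pos)
  have t0 : Tendsto e.f (𝓝 0) (𝓝 x) := h0 ▸ c0
  obtain ⟨ε, hε, hb⟩ := Metric.nhds_basis_closedBall.mem_iff.1
    (inter_mem (closedBall_mem_nhds (0 : V) one_pos) (t0 (hA.and hB)))
  have sm : ∀ p ∈ cube 3, ε • p ∈ closedBall (0 : V) ε := by
    intro p hp
    rw [mem_closedBall_zero_iff] at hp ⊢
    rw [norm_smul, Real.norm_eq_abs, abs_of_pos hε]
    nlinarith
  have g0 : e.g x = 0 := by rw [← h0, e.li 0 z]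
  have c1 : Tendsto e.g (𝓝 x) (𝓝 0) := g0 ▸ e.pg.1.continuousAt hC
  refine fl_of_chart (N := C) (f := fun p => e.f (ε • p)) (g := fun y => ε⁻¹ • e.g y)
    (e.pf.comp (pl_smul ε (plOn_id _)) fun p hp => (hb (sm p hp)).1) (pl_smul _ e.pg)
    (fun p hp => e.mf (hb (sm p hp)).1) (fun p hp => ?_) (by simpa using h0) ?_
    (fun p hp => ?_) (fun p hp => ?_)
  · rw [e.li _ (hb (sm p hp)).1, smul_smul, inv_mul_cancel₀ hε.ne', one_smul]
  · filter_upwards [hC, c1 (closedBall_mem_nhds 0 hε)] with y h1 h2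
    refine ⟨?_, by rw [smul_smul, mul_inv_cancel₀ hε.ne', one_smul, e.ri y h1]⟩
    have h3 : ‖e.g y‖ ≤ ε := mem_closedBall_zero_iff.1 h2
    rw [mem_closedBall_zero_iff, norm_smul, Real.norm_eq_abs, abs_of_pos (inv_pos.2 hε),
      inv_mul_le_iff₀ hε]
    linarith
  · rw [(hb (sm p hp)).2.1, mem_iff_of_chart e eA (hb (sm p hp)).1]
    show 0 ≤ ε * p 2 ↔ _
    exact mul_nonneg_iff_of_pos_left hε
  · rw [(hb (sm p hp)).2.2, mem_iff_of_chart e eB (hb (sm p hp)).1]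
    show ε * p 2 ≤ 0 ↔ _
    constructor
    · intro h; by_contra k; push Not at k; nlinarith [mul_pos hε k]
    · intro h; nlinarith

/-- exchange of the coordinates `i` and `2` -/
def sw (i : Fin 3) (p : V) : V := fun j => p (Equiv.swap i 2 j)

theorem sw_sw (i : Fin 3) (p : V) : sw i (sw i p) = p := by
  ext j; simp [sw]

theorem sw_smul (i : Fin 3) (c : ℝ) (p : V) : sw i (c • p) = c • sw i p := rfl

theorem norm_sw_le (i : Fin 3) (p : V) : ‖sw i p‖ ≤ ‖p‖ :=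
  (pi_norm_le_iff_of_nonneg (norm_nonneg _)).2 fun _ => norm_le_pi_norm p _

theorem pl_sw (i : Fin 3) {f : V → V} {K : Set V} (hf : PLOn f K) :
    PLOn (fun x => sw i (f x)) K := pl_pi fun _ => pl_apply hf _

/-- a PL function with slope one in the direction `d` has flat levels -/
theorem fl_of_shear {u : V → ℝ} {x d : V} {r : ℝ} (hr : 0 < r) (hu : PLOn u (ball x r))
    (hd : d ≠ 0)
    (hs : ∀ (y : V) (s : ℝ), y ∈ ball x r → y + s • d ∈ ball x r → u (y + s • d) = u y + s) :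
    Fl {y | u x ≤ u y} {y | u y ≤ u x} x := by
  obtain ⟨i, hi⟩ : ∃ i, d i ≠ 0 := by
    by_contra h
    push Not at h
    exact hd (by ext j; exact h j)
  let a : V → ℝ := fun y => u x + (d i)⁻¹ * (y i - x i)
  have ha : ∀ (y : V) (s : ℝ), a (y + s • d) = a y + s := by
    intro y s
    simp only [a, Pi.add_apply, Pi.smul_apply, smul_eq_mul]
    field_simp
    ring
  have pa : PLOn a (ball x r) :=
    pl_add (plOn_const _ _) (pl_mul _ (pl_sub (pl_coord i _) (plOn_const _ _)))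
  have ax : a x = u x := by simp [a]
  let φ : V → V := fun y => y + (u y - a y) • d
  let ψ : V → V := fun y => y + (a y - u y) • d
  have pφ : PLOn φ (ball x r) := pl_add (plOn_id _) (pl_smul_const (pl_sub hu pa) d)
  have pψ : PLOn ψ (ball x r) := pl_add (plOn_id _) (pl_smul_const (pl_sub pa hu) d)
  have φx : φ x = x := by simp [φ, ax]
  have ψx : ψ x = x := by simp [ψ, ax]
  have uψ : ∀ z ∈ ball x r, ψ z ∈ ball x r → u (ψ z) = a z := by
    intro z h1 h2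
    rw [hs z _ h1 h2]; ring
  have φψ : ∀ z ∈ ball x r, ψ z ∈ ball x r → φ (ψ z) = z := by
    intro z h1 h2
    show ψ z + (u (ψ z) - a (ψ z)) • d = z
    rw [uψ z h1 h2, ha]
    simp only [ψ]
    module
  have ψφ : ∀ z ∈ ball x r, φ z ∈ ball x r → ψ (φ z) = z := by
    intro z h1 h2
    show φ z + (a (φ z) - u (φ z)) • d = z
    rw [hs z _ h1 h2, ha]
    simp only [φ]
    module
  have tφ : Tendsto φ (𝓝 x) (𝓝 x) := by
    have := pφ.1.continuousAt (ball_mem_nhds x hr)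
    rwa [ContinuousAt, φx] at this
  have tψ : Tendsto ψ (𝓝 x) (𝓝 x) := by
    have := pψ.1.continuousAt (ball_mem_nhds x hr)
    rwa [ContinuousAt, ψx] at this
  obtain ⟨δ, hδ, hb⟩ := Metric.nhds_basis_closedBall.mem_iff.1
    (inter_mem (ball_mem_nhds x hr) (tψ (ball_mem_nhds x hr)))
  have hi' : 0 < |d i| := abs_pos.2 hi
  set κ : ℝ := δ / |d i| * d i with hκ
  have κa : |κ| = δ := by
    rw [hκ, abs_mul, abs_div, abs_abs, abs_of_pos hδ]; field_simp
  have κ0 : κ ≠ 0 := by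
    intro h; rw [h, abs_zero] at κa; exact hδ.ne κa
  have sm : ∀ p ∈ cube 3, x + κ • sw i p ∈ closedBall x δ := by
    intro p hp
    rw [mem_closedBall_zero_iff] at hp
    rw [mem_closedBall, dist_eq_norm, add_sub_cancel_left, norm_smul, Real.norm_eq_abs, κa]
    nlinarith [norm_sw_le i p]
  have val : ∀ p ∈ cube 3, u (ψ (x + κ • sw i p)) = u x + δ / |d i| * p 2 := by
    intro p hp
    rw [uψ _ (hb (sm p hp)).1 (hb (sm p hp)).2]
    simp only [a, Pi.add_apply, Pi.smul_apply, smul_eq_mul, sw, Equiv.swap_apply_left, hκ]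
    field_simp
    ring
  have pos : 0 < δ / |d i| := div_pos hδ hi'
  refine fl_of_chart (N := ball x r) (f := fun p => ψ (x + κ • sw i p))
    (g := fun y => κ⁻¹ • sw i (φ y - x))
    (pψ.comp (pl_add (plOn_const _ _) (pl_smul _ (pl_sw i (plOn_id _))))
      fun p hp => (hb (sm p hp)).1)
    (pl_smul _ (pl_sw i (pl_sub pφ (plOn_const _ _)))) (fun p hp => (hb (sm p hp)).2)
    (fun p hp => ?_) ?_ ?_ (fun p hp => ?_) (fun p hp => ?_)
  · rw [φψ _ (hb (sm p hp)).1 (hb (sm p hp)).2, add_sub_cancel_left, sw_smul, sw_sw, smul_smul,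
      inv_mul_cancel₀ κ0, one_smul]
  · have : sw i (0 : V) = 0 := rfl
    rw [this, smul_zero, add_zero, ψx]
  · filter_upwards [ball_mem_nhds x hr, tφ (closedBall_mem_nhds x hδ)] with y h1 h2
    have h3 : ‖φ y - x‖ ≤ δ := by rw [← dist_eq_norm]; exact h2
    constructor
    · rw [mem_closedBall_zero_iff, norm_smul, norm_inv, Real.norm_eq_abs, κa, inv_mul_le_iff₀ hδ]
      linarith [norm_sw_le i (φ y - x)]
    · rw [sw_smul, sw_sw, smul_smul, mul_inv_cancel₀ κ0, one_smul, add_sub_cancel]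
      exact ψφ y h1 (hb h2).1
  · show u x ≤ u (ψ (x + κ • sw i p)) ↔ _
    rw [val p hp, le_add_iff_nonneg_right]
    exact mul_nonneg_iff_of_pos_left pos
  · show u (ψ (x + κ • sw i p)) ≤ u x ↔ _
    rw [val p hp, add_le_iff_nonpos_right]
    constructor
    · intro h; by_contra k; push Not at k; nlinarith [mul_pos pos k]
    · intro h; nlinarith

/-- the critical values of a finite family of affine functions -/
def bad (S : Finset (V →ᵃ[ℝ] ℝ)) : Set ℝ :=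
  {c | ∃ I ⊆ S, I.Nonempty ∧ (∀ d : V, (∀ a ∈ I, ∀ b ∈ I, a.linear d = b.linear d) →
    ∀ a ∈ I, a.linear d = 0) ∧ ∃ x, ∀ a ∈ I, a x = c}

theorem aff_add (a : V →ᵃ[ℝ] ℝ) (y d : V) : a (y + d) = a y + a.linear d := by
  have := a.map_vadd y d
  simp only [vadd_eq_add] at this
  rw [add_comm y d, this, add_comm]

theorem bad_finite (S : Finset (V →ᵃ[ℝ] ℝ)) : (bad S).Finite := by
  have h : ∀ I : Finset (V →ᵃ[ℝ] ℝ), Set.Subsingleton {c | I.Nonempty ∧
      (∀ d : V, (∀ a ∈ I, ∀ b ∈ I, a.linear d = b.linear d) → ∀ a ∈ I, a.linear d = 0) ∧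
      ∃ x, ∀ a ∈ I, a x = c} := by
    rintro I c ⟨⟨a, ha⟩, h1, x, hx⟩ c' ⟨-, -, y, hy⟩
    have k : ∀ b ∈ I, b.linear (x - y) = c - c' := by
      intro b hb
      have := aff_add b y (x - y)
      rw [add_sub_cancel, hx b hb, hy b hb] at this
      linarith
    have := h1 (x - y) (fun b hb b' hb' => by rw [k b hb, k b' hb']) a ha
    rw [k a ha] at this
    linarith
  refine (S.powerset.finite_toSet.biUnion fun I _ => (h I).finite).subset ?_
  rintro c ⟨I, h1, h2⟩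
  exact mem_biUnion (Finset.mem_coe.2 (Finset.mem_powerset.2 h1)) h2

/-- regular values of a selection of affine functions -/
theorem fl_of_notMem_bad {u : V → ℝ} {N : Set V} {x : V} (hN : N ∈ 𝓝 x) (hc : ContinuousOn u N)
    {S : Finset (V →ᵃ[ℝ] ℝ)} (hS : ∀ y ∈ N, ∃ a ∈ S, u y = a y) (hx : u x ∉ bad S) :
    Fl {y | u x ≤ u y} {y | u y ≤ u x} x := by
  classical
  let I := S.filter fun a => a x = u x
  have hI : I.Nonempty := by
    obtain ⟨a, ha, e⟩ := hS x (mem_of_mem_nhds hN)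
    exact ⟨a, Finset.mem_filter.2 ⟨ha, e.symm⟩⟩
  obtain ⟨d, h1, a, ha, h2⟩ : ∃ d : V, (∀ a ∈ I, ∀ b ∈ I, a.linear d = b.linear d) ∧
      ∃ a ∈ I, a.linear d ≠ 0 := by
    by_contra h
    push Not at h
    exact hx ⟨I, Finset.filter_subset _ _, hI, h, x, fun a ha => (Finset.mem_filter.1 ha).2⟩
  have h3 : ∀ b ∈ I, b.linear ((a.linear d)⁻¹ • d) = 1 := by
    intro b hb
    rw [map_smul, h1 b hb a ha, smul_eq_mul, inv_mul_cancel₀ h2]
  generalize (a.linear d)⁻¹ • d = v at h3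
  have hv : v ≠ 0 := by
    intro h
    have := h3 a ha
    rw [h, map_zero] at this
    exact zero_ne_one this
  have near : ∀ᶠ y in 𝓝 x, ∀ b ∈ S, b x ≠ u x → b y ≠ u y := by
    rw [eventually_all_finset]
    intro b _
    by_cases hb : b x = u x
    · exact Eventually.of_forall fun _ h => absurd hb h
    · have k : ContinuousAt (fun y => b y - u y) x :=
        b.continuous_of_finiteDimensional.continuousAt.sub (hc.continuousAt hN)
      exact (k.eventually_ne (sub_ne_zero.2 hb)).mono fun _ h _ => sub_ne_zero.1 h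
  obtain ⟨r, hr, hb⟩ := Metric.mem_nhds_iff.1 (inter_mem hN near)
  have sel : ∀ y ∈ ball x r, ∃ b ∈ I, u y = b y := by
    intro y hy
    obtain ⟨b, h4, h5⟩ := hS y (hb hy).1
    refine ⟨b, Finset.mem_filter.2 ⟨h4, ?_⟩, h5⟩
    by_contra h6
    exact (hb hy).2 b h4 h6 h5.symm
  have cu : ContinuousOn u (ball x r) := hc.mono fun y hy => (hb hy).1
  refine fl_of_shear hr ⟨cu, I, sel⟩ hv fun y s h4 h5 => ?_
  let J : Set ℝ := (fun s : ℝ => y + s • v) ⁻¹' ball x r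
  have hJ : Convex ℝ J := by
    intro p hp q hq α β hα hβ hαβ
    have := convex_ball x r hp hq hα hβ hαβ
    show y + (α • p + β • q) • v ∈ ball x r
    have e : y + (α • p + β • q) • v = α • (y + p • v) + β • (y + q • v) := by
      have : β = 1 - α := by linarith
      rw [this]
      simp only [smul_eq_mul]
      module
    rw [e]; exact this
  have c1 : ContinuousOn (fun s : ℝ => u (y + s • v) - s) J :=
    (cu.comp (f := fun s : ℝ => y + s • v) (by fun_prop) fun _ h => h).sub continuousOn_id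
  have m1 : MapsTo (fun s : ℝ => u (y + s • v) - s) J ((fun b : V →ᵃ[ℝ] ℝ => b y) '' I) := by
    intro t ht
    obtain ⟨b, h6, h7⟩ := sel _ ht
    refine ⟨b, h6, ?_⟩
    show b y = u (y + t • v) - t
    rw [h7, aff_add, map_smul, h3 b h6]
    simp
  have := hJ.isPreconnected.constant_of_mapsTo (I.finite_toSet.image _).isDiscrete c1 m1
    (show s ∈ J from h5) (show (0 : ℝ) ∈ J by simpa [J] using h4)
  simp only [zero_smul, add_zero, sub_zero] at this
  linarith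

/-- **regular levels**: off a countable set of values the levels of a locally PL function are
flat -/
theorem exists_bad {u : V → ℝ} {Ω : Set V} (hu : LocPL u Ω) :
    ∃ T : Set ℝ, T.Countable ∧ ∀ x ∈ Ω, u x ∉ T → Fl {y | u x ≤ u y} {y | u y ≤ u x} x := by
  have h : ∀ x ∈ Ω, ∃ (r : ℝ) (S : Finset (V →ᵃ[ℝ] ℝ)), 0 < r ∧ ContinuousOn u (ball x r) ∧
      ∀ y ∈ ball x r, ∃ a ∈ S, u y = a y := by
    intro x hx
    obtain ⟨r, hr, h1, S, h2⟩ := hu x hx
    exact ⟨r, S, hr, h1, h2⟩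
  choose! r S hr h1 h2 using h
  obtain ⟨t, ht, hc, hs⟩ := TopologicalSpace.countable_cover_nhdsWithin
    (f := fun x => ball x (r x)) (s := Ω)
    fun x hx => mem_nhdsWithin_of_mem_nhds (ball_mem_nhds x (hr x hx))
  refine ⟨⋃ x ∈ t, bad (S x), hc.biUnion fun x _ => (bad_finite _).countable, fun x hx hT => ?_⟩
  obtain ⟨z, hz, hxz⟩ := mem_iUnion₂.1 (hs hx)
  exact fl_of_notMem_bad (isOpen_ball.mem_nhds hxz) (h1 z (ht hz)) (h2 z (ht hz))
    fun k => hT (mem_biUnion hz k)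

end Crest.Agent.X212.Lvf3
end

-- ▼ part X212/Lvf3/Main
section

/-!
# Row 212, layer T, LEVF (helper3), part 2: PL bumps, PL approximation, `lev : LevStmt`
-/

set_option autoImplicit false

open Set Metric Topology Filter Crest.Agent.R096.Ce_537 Crest.Agent.X212.Prd34
  Crest.Agent.X212.Lev33 Crest.Agent.X212.Lad50

namespace Crest.Agent.X212.Lvf3

/-- **PL bump functions** -/
theorem exists_bump {O K : Set V} (hO : IsOpen O) (hK : IsCompact K) (hKO : K ⊆ O) :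
    ∃ (K' N : Set V) (lam : V → ℝ), IsCompact K' ∧ K' ⊆ O ∧ IsOpen N ∧ K ⊆ N ∧ PLOn lam univ ∧
      (∀ y, 0 ≤ lam y ∧ lam y ≤ 1) ∧ (∀ y, y ∉ K' → lam y = 0) ∧ ∀ y ∈ N, lam y = 1 := by
  refine hK.induction_on (p := fun K => ∃ (K' N : Set V) (lam : V → ℝ), IsCompact K' ∧ K' ⊆ O ∧
    IsOpen N ∧ K ⊆ N ∧ PLOn lam univ ∧ (∀ y, 0 ≤ lam y ∧ lam y ≤ 1) ∧
      (∀ y, y ∉ K' → lam y = 0) ∧ ∀ y ∈ N, lam y = 1) ?_ ?_ ?_ ?_
  · exact ⟨∅, ∅, fun _ => 0, isCompact_empty, empty_subset _, isOpen_empty, Subset.rfl,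
      plOn_const _ _, fun _ => ⟨le_rfl, zero_le_one⟩, fun _ _ => rfl, fun _ h => absurd h id⟩
  · rintro s t hst ⟨K', N, lam, h1, h2, h3, h4, h5⟩
    exact ⟨K', N, lam, h1, h2, h3, hst.trans h4, h5⟩
  · rintro s t ⟨K', N, lam, h1, h2, h3, h4, h5, h6, h7, h8⟩
      ⟨K'', N', lam', k1, k2, k3, k4, k5, k6, k7, k8⟩
    refine ⟨K' ∪ K'', N ∪ N', fun y => max (lam y) (lam' y), h1.union k1, union_subset h2 k2,
      h3.union k3, union_subset_union h4 k4, pl_max h5 k5,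
      fun y => ⟨le_max_of_le_left (h6 y).1, max_le (h6 y).2 (k6 y).2⟩, fun y hy => ?_, ?_⟩
    · show max (lam y) (lam' y) = 0
      rw [h7 y fun h => hy (Or.inl h), k7 y fun h => hy (Or.inr h), max_self]
    · rintro y (hy | hy)
      · show max (lam y) (lam' y) = 1
        rw [h8 y hy]; exact max_eq_left (k6 y).2
      · show max (lam y) (lam' y) = 1
        rw [k8 y hy]; exact max_eq_right (h6 y).2
  · intro x hx
    obtain ⟨r, hr, hb⟩ := Metric.nhds_basis_closedBall.mem_iff.1 (hO.mem_nhds (hKO hx))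
    refine ⟨ball x (r / 2), mem_nhdsWithin_of_mem_nhds (ball_mem_nhds x (half_pos hr)),
      closedBall x r, ball x (r / 2), fun y => max 0 (min 1 (2 - 2 / r * ‖y - x‖)),
      isCompact_closedBall x r, hb, isOpen_ball, Subset.rfl,
      pl_max (plOn_const _ _) (pl_min (plOn_const _ _) (pl_sub (plOn_const _ _)
        (pl_mul _ (pl_norm (pl_sub (plOn_id _) (plOn_const _ _)))))),
      fun y => ⟨le_max_left _ _, max_le zero_le_one (min_le_left _ _)⟩, fun y hy => ?_,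
      fun y hy => ?_⟩
    · rw [mem_closedBall, dist_eq_norm, not_le] at hy
      refine max_eq_left ((min_le_right _ _).trans ?_)
      have : 2 / r * r ≤ 2 / r * ‖y - x‖ := mul_le_mul_of_nonneg_left hy.le (by positivity)
      rw [div_mul_cancel₀ _ hr.ne'] at this
      linarith
    · rw [mem_ball, dist_eq_norm] at hy
      have : 2 / r * ‖y - x‖ ≤ 2 / r * (r / 2) := mul_le_mul_of_nonneg_left hy.le (by positivity)
      have e : 2 / r * (r / 2) = 1 := by field_simp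
      show max 0 (min 1 (2 - 2 / r * ‖y - x‖)) = 1
      rw [min_eq_left (by linarith), max_eq_right zero_le_one]

/-- **PL approximation** on a compact set -/
theorem exists_approx {K : Set V} (hK : IsCompact K) {w : V → ℝ} (hw : ContinuousOn w K) {e : ℝ}
    (he : 0 < e) : ∃ v : V → ℝ, PLOn v univ ∧ ∀ y ∈ K, |v y - w y| < e := by
  have : CompactSpace K := isCompact_iff_compactSpace.1 hK
  let L : Set C(K, ℝ) := {f | ∃ v : V → ℝ, PLOn v univ ∧ ∀ y : K, f y = v y}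
  have mk : ∀ v : V → ℝ, PLOn v univ → ∃ f ∈ L, ∀ y : K, f y = v y := fun v hv =>
    ⟨⟨fun y => v y, (continuousOn_univ.1 hv.1).comp continuous_subtype_val⟩, ⟨v, hv, fun _ => rfl⟩,
      fun _ => rfl⟩
  have hL : closure L = ⊤ := by
    refine ContinuousMap.sublattice_closure_eq_top L ?_ ?_ ?_ ?_
    · obtain ⟨f, hf, -⟩ := mk _ (plOn_const 0 univ)
      exact ⟨f, hf⟩
    · rintro f ⟨v, hv, e1⟩ g ⟨v', hv', e2⟩
      exact ⟨_, pl_min hv hv', fun y => by rw [ContinuousMap.inf_apply, e1, e2]⟩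
    · rintro f ⟨v, hv, e1⟩ g ⟨v', hv', e2⟩
      exact ⟨_, pl_max hv hv', fun y => by rw [ContinuousMap.sup_apply, e1, e2]⟩
    · intro c x y
      by_cases hxy : x = y
      · obtain ⟨f, hf, e1⟩ := mk _ (plOn_const (c x) univ)
        exact ⟨f, hf, e1 x, by rw [e1 y, hxy]⟩
      · obtain ⟨i, hi⟩ : ∃ i, (x : V) i ≠ (y : V) i := by
          by_contra h
          push Not at h
          exact hxy (Subtype.ext (by ext j; exact h j))
        obtain ⟨f, hf, e1⟩ := mk (fun z => c x + (c y - c x) / ((y : V) i - (x : V) i) *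
          (z i - (x : V) i)) (pl_add (plOn_const _ _) (pl_mul _ (pl_sub (pl_coord i _)
            (plOn_const _ _))))
        refine ⟨f, hf, by rw [e1 x]; simp, ?_⟩
        rw [e1 y, div_mul_cancel₀ _ (sub_ne_zero.2 hi.symm)]
        ring
  let W : C(K, ℝ) := ⟨fun y => w y, continuousOn_iff_continuous_domRestrict.1 hw⟩
  have hW : W ∈ closure L := by rw [hL]; trivial
  obtain ⟨f, ⟨v, hv, e1⟩, hd⟩ := Metric.mem_closure_iff.1 hW e he
  refine ⟨v, hv, fun y hy => ?_⟩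
  have := (ContinuousMap.dist_apply_le_dist (f := W) (g := f) ⟨y, hy⟩).trans_lt hd
  rw [e1, Real.dist_eq, abs_sub_comm] at this
  exact this

/-- making a function PL near a compact set, rel the complement of a larger one -/
theorem exists_mod {U W O K : Set V} {w : V → ℝ} (hO : IsOpen O) (hOU : O ⊆ U)
    (hK : IsCompact K) (hKO : K ⊆ O) (hw : ContinuousOn w U) (pw : LocPL w W) {e : ℝ}
    (he : 0 < e) : ∃ (K' N : Set V) (u : V → ℝ), IsCompact K' ∧ K' ⊆ O ∧ K ⊆ N ∧ N ⊆ K' ∧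
      ContinuousOn u U ∧ LocPL u (N ∪ W) ∧ (∀ y, y ∉ K' → u y = w y) ∧
      ∀ y, |u y - w y| ≤ e := by
  obtain ⟨K', N, lam, h1, h2, h3, h4, h5, h6, h7, h8⟩ := exists_bump hO hK hKO
  obtain ⟨v, hv, hvw⟩ := exists_approx h1 (hw.mono (h2.trans hOU)) he
  have hNK : N ⊆ K' := by
    intro y hy
    by_contra h
    exact zero_ne_one ((h7 y h).symm.trans (h8 y hy))
  have cl : Continuous lam := continuousOn_univ.1 h5.1
  have cv : Continuous v := continuousOn_univ.1 hv.1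
  refine ⟨K', N, fun y => max (w y - e * lam y) (min (v y) (w y + e * lam y)), h1, h2, h4, hNK,
    ?_, ?_, fun y hy => ?_, fun y => ?_⟩
  · exact (hw.sub (by fun_prop)).sup (cv.continuousOn.inf (hw.add (by fun_prop)))
  · refine locPL_of_nhds ?_
    rintro x (hx | hx)
    · refine ⟨N, h3.mem_nhds hx, (hv.mono (subset_univ _)).congr fun y hy => ?_⟩
      have := abs_lt.1 (hvw y (hNK hy))
      show max (w y - e * lam y) (min (v y) (w y + e * lam y)) = v y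
      rw [h8 y hy, min_eq_left (by linarith), max_eq_right (by linarith)]
    · obtain ⟨r, hr, hp⟩ := pw x hx
      have k := pl_mul e (h5.mono (subset_univ (ball x r)))
      exact ⟨ball x r, ball_mem_nhds x hr,
        pl_max (pl_sub hp k) (pl_min (hv.mono (subset_univ _)) (pl_add hp k))⟩
  · show max (w y - e * lam y) (min (v y) (w y + e * lam y)) = w y
    rw [h7 y hy, mul_zero, sub_zero, add_zero, max_eq_left (min_le_right _ _)]
  · have k1 : 0 ≤ e * lam y := mul_nonneg he.le (h6 y).1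
    have k2 : e * lam y ≤ e := by nlinarith [(h6 y).2]
    have k3 := le_max_left (w y - e * lam y) (min (v y) (w y + e * lam y))
    have k4 : max (w y - e * lam y) (min (v y) (w y + e * lam y)) ≤ w y + e * lam y :=
      max_le (by linarith) (min_le_right _ _)
    rw [abs_le]
    constructor <;> linarith

/-- **(LEV)** -/
theorem lev : LevStmt := by
  intro U W O K w μ η hU hW hWU hO hOU hK hKO hη hw hμ pw hWK hμ1 hμ01 hfl
  obtain ⟨K', N, u, h1, h2, h3, h4, cu, pu, h5, h6⟩ :=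
    exists_mod hO hOU hK hKO hw pw (show 0 < η / 4 by positivity)
  obtain ⟨T, hT, hreg⟩ := exists_bad pu
  obtain ⟨t, htT, ht⟩ := (hT.dense_compl ℝ).exists_between (show -(η / 2) < η / 2 by linarith)
  have ht' : |t| < η / 2 := abs_lt.2 ht
  have tμ : ∀ x ∈ U, |t * μ x| < η / 2 := by
    intro x hx
    rw [abs_mul, abs_of_nonneg (hμ01 x hx).1]
    nlinarith [abs_nonneg t, (hμ01 x hx).2]
  have cd : ContinuousOn (fun y => u y - t * μ y) U := cu.sub (continuousOn_const.mul hμ)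
  refine ⟨{y | y ∈ U ∧ t * μ y ≤ u y}, {y | y ∈ U ∧ u y ≤ t * μ y}, K', t,
    ⟨hU, ?_, ?_, ?_, ?_⟩, h1, h2, by linarith, fun x hx hxK => ?_, ?_, ?_⟩
  · ext y
    constructor
    · rintro (h | h) <;> exact h.1
    · intro h
      exact (le_total (t * μ y) (u y)).imp (fun k => ⟨h, k⟩) fun k => ⟨h, k⟩
  · convert cd.isOpen_inter_preimage hU (isOpen_Iio (a := (0 : ℝ))) using 1
    ext y
    simp only [Set.mem_sdiff, mem_ofPred_eq, mem_inter_iff, mem_preimage, mem_Iio, not_and, not_le,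
      sub_neg]
    exact ⟨fun h => ⟨h.1, h.2 h.1⟩, fun h => ⟨h.1, fun _ => h.2⟩⟩
  · convert cd.isOpen_inter_preimage hU (isOpen_Ioi (a := (0 : ℝ))) using 1
    ext y
    simp only [Set.mem_sdiff, mem_ofPred_eq, mem_inter_iff, mem_preimage, mem_Ioi, not_and, not_le,
      sub_pos]
    exact ⟨fun h => ⟨h.1, h.2 h.1⟩, fun h => ⟨h.1, fun _ => h.2⟩⟩
  · rintro x ⟨⟨hx, k1⟩, -, k2⟩
    have e : u x = t * μ x := le_antisymm k2 k1
    have k3 := abs_le.1 (h6 x)
    have k4 := abs_lt.1 (tμ x hx)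
    have hxW : x ∈ W ∪ K := hWK x hx (abs_le.2 ⟨by linarith, by linarith⟩)
    by_cases hxK : x ∈ K'
    · have e' : u x = t := by rw [e, hμ1 x (h2 hxK), mul_one]
      have := hreg x (hxW.symm.imp (fun h => h3 h) id) (by rw [e']; exact htT)
      rw [e'] at this
      refine fl_congr this ?_ ?_ <;> filter_upwards [hO.mem_nhds (h2 hxK)] with y hy <;>
        simp [hμ1 y hy, hOU hy]
    · have := hfl t (by linarith) x (hxW.resolve_right fun h => hxK (h4 (h3 h)))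
        (by rw [← h5 x hxK, e])
      refine fl_congr this ?_ ?_ <;>
        filter_upwards [h1.isClosed.isOpen_compl.mem_nhds hxK] with y hy <;> simp [h5 y hy]
  · simp [h5 x hxK, hx]
  · rintro x ⟨hx, k⟩
    have k3 := abs_le.1 (h6 x)
    have k4 := abs_lt.1 (tμ x hx)
    linarith
  · rintro x ⟨hx, k⟩
    have k3 := abs_le.1 (h6 x)
    have k4 := abs_lt.1 (tμ x hx)
    linarith

end Crest.Agent.X212.Lvf3
end

-- ▼ part X212/Lev33/Ann1
section

/-!
# Row 212, layer T, ANN (helper33), part 1: the triangular wave; collared blocks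
-/

set_option autoImplicit false

open Set Metric Topology Filter Crest.Agent.R096.Ce_537 Crest.Agent.X212.Prd34
open Crest.Agent.R096.Cx_609 (equivOfInjOn)

namespace Crest.Agent.X212.Lev33

/-! ### the triangular wave -/

/-- period one, zeros at `0` and `1/2`, slopes `±1` -/
noncomputable def tri (x : ℝ) : ℝ := 1 / 4 - |x - 1 / 4 - round (x - 1 / 4)|

theorem tri_eq {y : ℝ} (n : ℤ) (h : |y - 1 / 4 - n| ≤ 1 / 2) : tri y = 1 / 4 - |y - 1 / 4 - n| := by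
  unfold tri
  congr 1
  refine le_antisymm (round_le _ n) ?_
  by_cases e : round (y - 1 / 4) = n
  · rw [e]
  · have h1 : (1 : ℝ) ≤ |((round (y - 1 / 4) : ℤ) : ℝ) - n| := by
      exact_mod_cast Int.one_le_abs (sub_ne_zero.2 e)
    have h2 := abs_sub_le ((round (y - 1 / 4) : ℤ) : ℝ) (y - 1 / 4) n
    rw [abs_sub_comm _ (y - 1 / 4)] at h2
    linarith

theorem tri_add_int (x : ℝ) (n : ℤ) : tri (x + n) = tri x := by
  unfold tri
  rw [show x + n - 1 / 4 = x - 1 / 4 + n by ring, round_add_intCast]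
  push_cast
  congr 2; ring

theorem continuous_tri : Continuous tri := by
  have : tri = fun x => 1 / 4 - ‖((x - 1 / 4 : ℝ) : UnitAddCircle)‖ := by
    funext x; rw [UnitAddCircle.norm_eq]; rfl
  rw [this]
  exact continuous_const.sub
    (((AddCircle.continuous_mk' 1).comp (continuous_id.sub continuous_const)).norm)

theorem pl_tri (x : ℝ) : PLOn tri (ball x (1 / 2)) := by
  have k : ∀ n : ℤ, PLOn (fun y : ℝ => 1 / 4 - |y - 1 / 4 - n|) (ball x (1 / 2)) := fun n =>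
    Lad50.pl_sub (plOn_const _ _) (Lad50.pl_abs (Lad50.pl_sub
      (Lad50.pl_sub (plOn_id _) (plOn_const _ _)) (plOn_const _ _)))
  refine Lad50.pl_of_sel (k ⌊x - 1 / 4⌋) (k (⌊x - 1 / 4⌋ + 1)) continuous_tri.continuousOn
    fun y hy => ?_
  rw [Real.ball_eq_Ioo] at hy
  have h1 := Int.floor_le (x - 1 / 4)
  have h2 := Int.lt_floor_add_one (x - 1 / 4)
  rcases le_total (y - 1 / 4 - ⌊x - 1 / 4⌋) (1 / 2) with k | k
  · exact Or.inl (tri_eq _ (abs_le.2 ⟨by linarith [hy.1], k⟩))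
  · exact Or.inr (tri_eq _ (abs_le.2 ⟨by push_cast; linarith, by push_cast; linarith [hy.2]⟩))

/-- the sign of the slope at the zero `j / 2` -/
def sg (j : Fin 2) : ℝ := 1 - 2 * ((j : ℕ) : ℝ)

/-- the zero `j / 2` -/
noncomputable def hf (j : Fin 2) : ℝ := ((j : ℕ) : ℝ) / 2

theorem sg_sq (j : Fin 2) : sg j * sg j = 1 := by fin_cases j <;> norm_num [sg]

theorem abs_sg (j : Fin 2) : |sg j| = 1 := by fin_cases j <;> norm_num [sg]

theorem tri_lin (j : Fin 2) (n : ℤ) {y : ℝ} (h : |y - hf j - n| ≤ 1 / 4) :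
    tri y = sg j * (y - hf j - n) := by
  have h' := abs_le.1 h
  fin_cases j <;> simp only [hf, sg] at h' ⊢ <;> norm_num at h' ⊢
  · rw [tri_eq n (abs_le.2 ⟨by linarith, by linarith⟩), abs_of_nonpos (by linarith)]; ring
  · rw [tri_eq n (abs_le.2 ⟨by linarith, by linarith⟩), abs_of_nonneg (by linarith)]; ring

theorem tri_sol (y : ℝ) : ∃ (j : Fin 2) (n : ℤ), y - hf j - n = sg j * tri y := by
  rcases le_total 0 (y - 1 / 4 - round (y - 1 / 4)) with k | k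
  · refine ⟨1, round (y - 1 / 4), ?_⟩
    rw [tri, abs_of_nonneg k]; norm_num [hf, sg]; ring
  · refine ⟨0, round (y - 1 / 4), ?_⟩
    rw [tri, abs_of_nonpos k]; norm_num [hf, sg]; ring

theorem tri_hf (j : Fin 2) : tri (hf j) = 0 := by
  rw [tri_lin j 0 (by simp)]; simp

/-! ### collared blocks -/

/-- the unit slab -/
def Sl : Set V := {p | 0 ≤ p 2 ∧ p 2 ≤ 1}

theorem convex_Sl : Convex ℝ Sl :=
  (convex_halfSpace_ge (f := fun y : V => y 2) ⟨fun _ _ => rfl, fun _ _ => rfl⟩ 0).inter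
    (convex_halfSpace_le (f := fun y : V => y 2) ⟨fun _ _ => rfl, fun _ _ => rfl⟩ 1)

theorem isClosed_Sl : IsClosed Sl :=
  (isClosed_le continuous_const (continuous_apply 2)).inter
    (isClosed_le (continuous_apply 2) continuous_const)

theorem lat2 {l : V} (hl : l ∈ lat {0, 1}) : l 2 = 0 := (hl 2).2 (by decide)

theorem lat1 {l : V} (hl : l ∈ lat {0, 1}) : ∃ n : ℤ, l 1 = n := (hl 1).1 (by decide)

theorem lat0 {l : V} (hl : l ∈ lat {0, 1}) : ∃ n : ℤ, l 0 = n := (hl 0).1 (by decide)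

theorem mem_lat (m n : ℤ) : (![(m : ℝ), n, 0] : V) ∈ lat {0, 1} := fun i => by
  fin_cases i <;> simp

theorem sl_add {p l : V} (hp : p ∈ Sl) (hl : l ∈ lat {0, 1}) : p + l ∈ Sl := by
  simpa [Sl, lat2 hl] using hp

theorem box_sub : Icc (0 : V) 1 ⊆ Sl := fun _ h => ⟨h.1 2, h.2 2⟩

theorem sl_red {q : V} (hq : q ∈ Sl) : ∃ l ∈ lat {0, 1}, q + l ∈ Icc (0 : V) 1 := by
  refine ⟨_, mem_lat (-⌊q 0⌋) (-⌊q 1⌋), fun i => ?_, fun i => ?_⟩ <;> fin_cases i <;> simp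
  exacts [Int.floor_le _, Int.floor_le _, hq.1, by linarith [Int.lt_floor_add_one (q 0)],
    by linarith [Int.lt_floor_add_one (q 1)], hq.2]

/-- a compact block `W` with two collared walls; `Φ i` the lifted collars, `τ` the collar
coordinate, `r` a retraction of the universal cover -/
structure Col (H : V → V) (W : Set V) (Φ : Fin 2 → V → V) (τ : V → ℝ) (r : V → V) : Prop where
  per : Per {0, 1} H
  cpt : IsCompact W
  sub : W ⊆ range H
  opn : IsOpen (W ∩ {z | 0 < τ z})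
  cont : ∀ i, ContinuousOn (Φ i) Sl
  eqv : ∀ i, ∀ p ∈ Sl, ∀ l ∈ lat {0, 1}, Φ i (p + l) = Φ i p + l
  pl : ∀ i, LPL (fun p => H (Φ i p)) Sl
  fib : ∀ i i', ∀ p ∈ Sl, ∀ p' ∈ Sl, H (Φ i p) = H (Φ i' p') → i = i' ∧ p - p' ∈ lat {0, 1}
  mem : ∀ i, ∀ p ∈ Sl, H (Φ i p) ∈ W
  τc : ContinuousOn τ W
  τΦ : ∀ i, ∀ p ∈ Sl, τ (H (Φ i p)) = p 2
  sur : ∀ z ∈ W, τ z < 1 → ∃ i, ∃ p ∈ Sl, H (Φ i p) = z
  rc : Continuous r
  rm : ∀ x, H (r x) ∈ W
  ri : ∀ x, H x ∈ W → r x = x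

namespace Col

variable {H : V → V} {W : Set V} {Φ : Fin 2 → V → V} {τ : V → ℝ} {r : V → V}
  (h : Col H W Φ τ r)
include h

theorem fc (i : Fin 2) : ContinuousOn (fun p => H (Φ i p)) Sl :=
  h.per.cont.comp_continuousOn (h.cont i)

theorem add (i : Fin 2) {p l : V} (hp : p ∈ Sl) (hl : l ∈ lat {0, 1}) :
    H (Φ i (p + l)) = H (Φ i p) := by rw [h.eqv i p hp l hl, per_add h.per _ hl]

theorem τ0 {z : V} (hz : z ∈ W) : 0 ≤ τ z := by
  by_contra k
  obtain ⟨i, p, hp, rfl⟩ := h.sur z hz (by linarith [not_le.1 k])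
  exact k (h.τΦ i p hp ▸ hp.1)

theorem cptZ (i : Fin 2) : IsCompact ((fun p => H (Φ i p)) '' Sl) := by
  convert (isCompact_Icc (a := (0 : V)) (b := 1)).image_of_continuousOn ((h.fc i).mono box_sub)
    using 1
  refine Subset.antisymm ?_ (image_mono box_sub)
  rintro _ ⟨q, hq, rfl⟩
  obtain ⟨l, hl, k⟩ := sl_red hq
  exact ⟨_, k, h.add i hq hl⟩

theorem img (i : Fin 2) {p : V} {N : Set V} (hN : N ∈ 𝓝[Sl] p) (hp : p ∈ Sl) :
    (fun p => H (Φ i p)) '' N ∈ 𝓝[(fun p => H (Φ i p)) '' Sl] H (Φ i p) := by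
  obtain ⟨O, hO, hpO, hs⟩ := mem_nhdsWithin.1 hN
  have cB : IsCompact (Icc (0 : V) 1 ∩ ⋂ l ∈ lat {0, 1}, {x | x + l ∉ O}) :=
    isCompact_Icc.inter_right (isClosed_biInter fun l _ =>
      (hO.preimage (continuous_id.add continuous_const)).isClosed_compl)
  have cl := (cB.image_of_continuousOn ((h.fc i).mono fun _ k => box_sub k.1)).isClosed
  filter_upwards [mem_nhdsWithin_of_mem_nhds (cl.isOpen_compl.mem_nhds (x := H (Φ i p))
    fun ⟨x, hx, e⟩ => mem_iInter₂.1 hx.2 _ (h.fib i i p hp x (box_sub hx.1) e.symm).2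
      (by simpa using hpO)), self_mem_nhdsWithin]
  rintro _ k ⟨q, hq, rfl⟩
  obtain ⟨l, hl, k1⟩ := sl_red hq
  by_contra k2
  refine k ⟨q + l, ⟨k1, mem_iInter₂.2 fun l' hl' k3 => k2 ⟨q + l + l', hs ⟨k3,
    sl_add (box_sub k1) hl'⟩, ?_⟩⟩, h.add i hq hl⟩
  exact (h.add i (box_sub k1) hl').trans (h.add i hq hl)

theorem nhds (i : Fin 2) {p : V} {N : Set V} (hN : N ∈ 𝓝[Sl] p) (hp : p ∈ Sl) (h1 : p 2 < 1) :
    (fun p => H (Φ i p)) '' N ∈ 𝓝[W] H (Φ i p) := by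
  refine nhdsWithin_le_iff.2 ?_ (h.img i hN hp)
  have e1 : ∀ᶠ z in 𝓝[W] H (Φ i p), τ z < 1 :=
    h.τc _ (h.mem i p hp) (Iio_mem_nhds (by rw [h.τΦ i p hp]; exact h1))
  have e2 : ∀ᶠ z in 𝓝 (H (Φ i p)), ∀ i', i' ≠ i → z ∉ (fun p => H (Φ i' p)) '' Sl := by
    rw [eventually_all]
    intro i'
    by_cases k : i' = i
    · exact Eventually.of_forall fun _ k' => (k' k).elim
    · filter_upwards [(h.cptZ i').isClosed.isOpen_compl.mem_nhds (x := H (Φ i p))
        fun ⟨q, hq, e⟩ => k (h.fib _ _ _ hq _ hp e).1] with z hz _ using hz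
  filter_upwards [e1, mem_nhdsWithin_of_mem_nhds e2, self_mem_nhdsWithin] with z k1 k2 k3
  obtain ⟨i', q, hq, rfl⟩ := h.sur z k3 k1
  by_cases k : i' = i
  · exact ⟨q, hq, by rw [k]⟩
  · exact (k2 i' k ⟨q, hq, rfl⟩).elim

theorem nhds' (i : Fin 2) {p : V} {N : Set V} (hN : N ∈ 𝓝[Sl] p) (h0 : 0 < p 2) (h1 : p 2 < 1) :
    (fun p => H (Φ i p)) '' N ∈ 𝓝 (H (Φ i p)) := by
  have hp : p ∈ Sl := ⟨h0.le, h1.le⟩
  have := h.nhds i hN hp h1
  rwa [nhdsWithin_eq_nhds.2 (mem_of_superset (h.opn.mem_nhds ⟨h.mem i p hp,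
    show 0 < τ _ by rw [h.τΦ i p hp]; exact h0⟩) inter_subset_left)] at this

/-- local inverses -/
theorem inv (i : Fin 2) {p : V} (hp : p ∈ Sl) {N0 : Set V} (hN0 : N0 ∈ 𝓝 p) :
    ∃ δ > 0, closedBall p δ ⊆ N0 ∧ ∃ e : PLEquiv (closedBall p δ ∩ Sl)
      ((fun p => H (Φ i p)) '' (closedBall p δ ∩ Sl)), e.f = fun p => H (Φ i p) := by
  obtain ⟨δ, hδ, hpl⟩ := h.pl i p hp
  obtain ⟨ε, hε, hb⟩ := nhds_basis_closedBall.mem_iff.1 (inter_mem hN0
    (inter_mem (ball_mem_nhds p hδ) (ball_mem_nhds p (show (0 : ℝ) < 1 / 2 by norm_num))))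
  refine ⟨ε, hε, fun x hx => (hb hx).1, equivOfInjOn ((convex_closedBall p ε).inter convex_Sl).finConv
    (isClosed_closedBall.inter isClosed_Sl) (hpl.mono fun x hx => ⟨(hb hx.1).2.1, hx.2⟩)
    fun x hx y hy e => ?_, rfl⟩
  refine sub_eq_zero.1 (lat_small (h.fib i i x hx.2 y hy.2 e).2 ?_)
  have := dist_triangle_right x y p
  rw [← dist_eq_norm]
  linarith [mem_ball.1 (hb hx.1).2.2, mem_ball.1 (hb hy.1).2.2]

/-- functions on the collars -/
theorem desc {X : Type*} (f : Fin 2 → V → X) (d : V → X)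
    (hf : ∀ i, ∀ p ∈ Sl, ∀ l ∈ lat {0, 1}, f i (p + l) = f i p) :
    ∃ g : V → X, (∀ i, ∀ p ∈ Sl, g (H (Φ i p)) = f i p) ∧
      ∀ z, (∀ i, ∀ p ∈ Sl, H (Φ i p) ≠ z) → g z = d z := by
  classical
  refine ⟨fun z => if k : ∃ q : Fin 2 × V, q.2 ∈ Sl ∧ H (Φ q.1 q.2) = z then
    f k.choose.1 k.choose.2 else d z, fun i p hp => ?_, fun z hz => dif_neg fun ⟨q, k1, k2⟩ =>
      hz _ _ k1 k2⟩
  have k : ∃ q : Fin 2 × V, q.2 ∈ Sl ∧ H (Φ q.1 q.2) = H (Φ i p) := ⟨(i, p), hp, rfl⟩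
  obtain ⟨e1, e2⟩ := h.fib _ _ _ k.choose_spec.1 _ hp k.choose_spec.2
  beta_reduce
  rw [dif_pos k, ← hf i p hp _ e2, add_sub_cancel, e1]

theorem cont_desc {X Y : Type*} [TopologicalSpace X] [TopologicalSpace Y] (i : Fin 2) {T : Set Y}
    {g : V × Y → X} (hg : ContinuousOn (fun q : V × Y => g (H (Φ i q.1), q.2)) (Sl ×ˢ T)) :
    ContinuousOn g (((fun p => H (Φ i p)) '' Sl) ×ˢ T) := by
  rintro ⟨_, t⟩ ⟨⟨p, hp, rfl⟩, ht⟩
  have := hg (p, t) ⟨hp, ht⟩
  rw [ContinuousWithinAt, nhdsWithin_prod_eq] at this ⊢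
  intro N hN
  obtain ⟨A, hA, B, hB, hs⟩ := mem_prod_iff.1 (this hN)
  refine mem_prod_iff.2 ⟨_, h.img i hA hp, B, hB, ?_⟩
  rintro ⟨_, s⟩ ⟨⟨q, hq, rfl⟩, hs'⟩
  exact hs (mk_mem_prod hq hs')

/-- the angle -/
theorem exists_theta : ∃ θ : V → ℝ, Continuous θ ∧
    (∀ x, ∀ l ∈ lat {0, 1}, θ (x + l) = θ x + l 1) ∧ ∀ i, ∀ p ∈ Sl, θ (Φ i p) = p 1 := by
  obtain ⟨g, g1, -⟩ := h.desc (fun i p => p 1 - Φ i p 1) (fun _ => 0) fun i p hp l hl => by
    simp [h.eqv i p hp l hl]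
  have c : ∀ i, ContinuousOn g ((fun p => H (Φ i p)) '' Sl) := fun i => by
    have := h.cont_desc i (T := (univ : Set Unit)) (g := fun q => g q.1) (ContinuousOn.congr
      (f := fun q : V × Unit => q.1 1 - Φ i q.1 1) ((by fun_prop : ContinuousOn
        (fun q : V × Unit => q.1 1) _).sub ((continuous_apply 1).comp_continuousOn
          ((h.cont i).comp continuousOn_fst fun _ k => k.1))) fun q hq => g1 i _ hq.1)
    exact this.comp (f := fun z => (z, ())) (by fun_prop) fun z hz => ⟨hz, trivial⟩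
  have cl := ((h.cptZ 0).union (h.cptZ 1)).isClosed
  obtain ⟨G, hG⟩ := ContinuousMap.exists_restrict_eq cl ⟨_, continuousOn_iff_continuous_domRestrict.1
    ((c 0).union_of_isClosed (c 1) (h.cptZ 0).isClosed (h.cptZ 1).isClosed)⟩
  refine ⟨fun x => x 1 + G (H x), (continuous_apply 1).add (G.continuous.comp h.per.cont),
    fun x l hl => by simp only [per_add h.per _ hl, Pi.add_apply]; ring, fun i p hp => ?_⟩
  have m : H (Φ i p) ∈ (fun p => H (Φ 0 p)) '' Sl ∪ (fun p => H (Φ 1 p)) '' Sl := by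
    fin_cases i
    exacts [Or.inl ⟨p, hp, rfl⟩, Or.inr ⟨p, hp, rfl⟩]
  have : G (H (Φ i p)) = g (H (Φ i p)) := DFunLike.congr_fun hG ⟨_, m⟩
  beta_reduce
  rw [this, g1 i p hp]; ring

/-- pushing off the walls -/
theorem exists_push : ∃ ρ : V × ℝ → V, ContinuousOn ρ (W ×ˢ Icc 0 (1 / 2)) ∧
    (∀ z ∈ W, ∀ s, s ≤ τ z → ρ (z, s) = z) ∧
    ∀ i, ∀ p ∈ Sl, ∀ s, ρ (H (Φ i p), s) = H (Φ i ![p 0, p 1, min 1 (max (p 2) s)]) := by
  have ms : ∀ p ∈ Sl, ∀ s : ℝ, (![p 0, p 1, min 1 (max (p 2) s)] : V) ∈ Sl := fun p hp s =>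
    ⟨le_min zero_le_one (le_max_of_le_left hp.1), min_le_left _ _⟩
  obtain ⟨g, g1, g2⟩ := h.desc (fun i p s => H (Φ i ![p 0, p 1, min 1 (max (p 2) s)]))
    (fun z _ => z) fun i p hp l hl => by
      funext s
      rw [← h.add i (ms p hp s) hl]
      congr 2
      funext k; fin_cases k <;> simp [lat2 hl]
  have id : ∀ z ∈ W, ∀ s, s ≤ τ z → g z s = z := by
    intro z hz s hs
    by_cases k : ∃ i, ∃ p ∈ Sl, H (Φ i p) = z
    · obtain ⟨i, p, hp, rfl⟩ := k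
      rw [h.τΦ i p hp] at hs
      simp only [g1 i p hp, max_eq_left hs, min_eq_right hp.2]
      congr 2
      funext k; fin_cases k <;> rfl
    · rw [g2 z fun i p hp e => k ⟨i, p, hp, e⟩]
  refine ⟨fun q => g q.1 q.2, ?_, id, fun i p hp s => by simp only [g1 i p hp]⟩
  have c : ∀ i, ContinuousOn (fun q : V × ℝ => g q.1 q.2)
      (((fun p => H (Φ i p)) '' Sl) ×ˢ Icc 0 (1 / 2)) := fun i => by
    refine h.cont_desc i (ContinuousOn.congr (f := fun q : V × ℝ =>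
      H (Φ i ![q.1 0, q.1 1, min 1 (max (q.1 2) q.2)])) ((h.fc i).comp ?_
        fun q hq => ms _ hq.1 _) fun q hq => by simp only [g1 i _ hq.1])
    refine Continuous.continuousOn (continuous_pi fun k => ?_)
    fin_cases k <;> simp <;> fun_prop
  have c' : ContinuousOn (fun q : V × ℝ => g q.1 q.2) ((W ∩ τ ⁻¹' Ici 1) ×ˢ Icc 0 (1 / 2)) :=
    continuousOn_fst.congr fun q hq => id _ hq.1.1 _ (by linarith [hq.2.2, show 1 ≤ τ q.1 from hq.1.2])
  have cl := fun i => (h.cptZ i).isClosed.prod (isClosed_Icc (a := (0 : ℝ)) (b := 1 / 2))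
  refine (((c 0).union_of_isClosed (c 1) (cl 0) (cl 1)).union_of_isClosed c' ((cl 0).union (cl 1))
    ((h.τc.preimage_isClosed_of_isClosed h.cpt.isClosed isClosed_Ici).prod isClosed_Icc)).mono ?_
  rintro ⟨z, s⟩ ⟨hz, hs⟩
  by_cases k : τ z < 1
  · obtain ⟨i, p, hp, rfl⟩ := h.sur z hz k
    fin_cases i
    exacts [Or.inl (Or.inl ⟨⟨p, hp, rfl⟩, hs⟩), Or.inl (Or.inr ⟨⟨p, hp, rfl⟩, hs⟩)]
  · exact Or.inr ⟨⟨hz, not_lt.1 k⟩, hs⟩

end Col

end Crest.Agent.X212.Lev33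
end

-- ▼ part X212/Lev33/Inc
section

/-!
# Row 212, layer T, LEV (helper33): the compression theorem
-/

set_option autoImplicit false

open Set Metric Topology Filter Crest.Agent.R096 Crest.Agent.R096.Ce_537 Crest.Agent.X212.Prd34
  Crest.Agent.X212.Srf12

namespace Crest.Agent.X212.Lev33

theorem isConnected_sph2 : IsConnected (sph 2) :=
  isConnected_sphere (by rw [rank_fin_fun]; exact_mod_cast one_lt_two) _ zero_le_one

theorem side_sub : side ⊆ cube 3 := fun _ h => h.1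

theorem lv_side {t : ℝ} (ht : |t| ≤ 1) {y : P} (hy : y ∈ sph 2) : lv t y ∈ side :=
  ((lv_sph ht).subset ⟨y, hy, rfl⟩).1

theorem conn_lev {R : Set V} (e : PLEquiv (cube 3) R) {t : ℝ} (ht : |t| ≤ 1) :
    IsConnected (e.f '' (side ∩ lev t)) := by
  rw [← lv_sph ht]
  exact (isConnected_sph2.image _ (pl_lv t _).1).image _ (e.pf.1.mono (by
    rw [lv_sph ht]; exact fun _ h => h.1.1))

theorem conn_band {R : Set V} (e : PLEquiv (cube 3) R) {ε : ℝ} (h1 : ε ≤ 1) :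
    IsPreconnected (e.f '' (side ∩ lc ε)) := by
  have : side ∩ lc ε = (fun p : ℝ × P => lv p.1 p.2) '' (Icc (-ε) ε ×ˢ sph 2) := by
    ext y
    constructor
    · rintro ⟨hy, hy'⟩
      exact ⟨(y 2, pr y), ⟨abs_le.1 hy'.2, mem_sph2.2 ⟨pr_mem hy.1, hy.2⟩⟩, lv_pr y⟩
    · rintro ⟨⟨t, z⟩, ⟨ht, hz⟩, rfl⟩
      have k := lv_side ((abs_le.2 ht).trans h1) hz
      exact ⟨k, k.1, abs_le.2 ht⟩
  refine IsPreconnected.image ?_ _ (e.pf.1.mono fun _ h => h.1.1)
  rw [this]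
  exact (isPreconnected_Icc.prod isConnected_sph2.2).image _ continuous_lv.continuousOn

/-- a parallel curve that bounds a disc in `S` -/
theorem null_of_cap {R S E : Set V} (e : PLEquiv (cube 3) R) {t : ℝ} (ht : |t| ≤ 1)
    (hE : IsBall 2 E (e.f '' (side ∩ lev t))) (hES : E ⊆ S) (hs : e.f '' side ⊆ S) :
    Null S id (e.f '' (cube 3 ∩ fl)) (e.f '' (side ∩ fl)) := by
  classical
  obtain ⟨φ, hφ, -⟩ := (isBall_lev e ht).extend hE (PLEquiv.refl _)
  let G : P → V := fun y => if ‖y‖ ≤ 1 / 2 then φ.f (e.f (lv t ((2 : ℝ) • y)))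
    else e.f (lv (t * (2 - 2 * ‖y‖)) (‖y‖⁻¹ • y))
  have m1 : ∀ y : P, ‖y‖ ≤ 1 / 2 → (2 : ℝ) • y ∈ cube 2 := fun y hy => by
    simp only [cube, mem_closedBall_zero_iff, norm_smul, Real.norm_ofNat]; linarith
  have m2 : ∀ y ∈ cube 2, 1 / 2 ≤ ‖y‖ → lv (t * (2 - 2 * ‖y‖)) (‖y‖⁻¹ • y) ∈ side := by
    intro y hy h
    have h1 : ‖y‖ ≤ 1 := by simpa [cube] using hy
    refine lv_side ?_ (smul_mem_sph (by rintro rfl; norm_num at h))
    rw [abs_mul, abs_of_nonneg (by linarith : 0 ≤ 2 - 2 * ‖y‖)]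
    nlinarith [abs_nonneg t]
  have G2 : ∀ y : P, 1 / 2 ≤ ‖y‖ → G y = e.f (lv (t * (2 - 2 * ‖y‖)) (‖y‖⁻¹ • y)) := by
    intro y h
    simp only [G]
    split_ifs with k
    · have k' : ‖y‖ = 1 / 2 := le_antisymm k h
      have : (2 : ℝ) • y ∈ sph 2 := by
        simp only [sph, mem_sphere_zero_iff_norm, norm_smul, Real.norm_ofNat, k']; norm_num
      rw [hφ ⟨_, ⟨lv_side ht this, rfl⟩, rfl⟩, k']
      norm_num
      rfl
    · rfl
  have cG : ContinuousOn G (cube 2) := by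
    have e1 : cube 2 = closedBall 0 (1 / 2) ∪ (cube 2 ∩ {y | 1 / 2 ≤ ‖y‖}) := by
      ext y
      simp only [cube, mem_union, mem_inter_iff, mem_closedBall_zero_iff, mem_ofPred_eq]
      constructor
      · intro h
        rcases le_total ‖y‖ (1 / 2) with k | k
        exacts [Or.inl k, Or.inr ⟨h, k⟩]
      · rintro (h | h)
        exacts [by linarith, h.1]
    rw [e1]
    refine ContinuousOn.union_of_isClosed ?_ ?_ isClosed_closedBall
      (isClosed_closedBall.inter (isClosed_le continuous_const continuous_norm))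
    · refine ContinuousOn.congr (f := fun y => φ.f (e.f (lv t ((2 : ℝ) • y)))) ?_
        fun y hy => if_pos (mem_closedBall_zero_iff.1 hy)
      refine φ.pf.1.comp (e.pf.1.comp
        (continuous_lv.comp (f := fun y : P => (t, (2 : ℝ) • y)) (by fun_prop)).continuousOn
        fun y hy => lv_mem ht (m1 y (mem_closedBall_zero_iff.1 hy))) fun y hy => ?_
      exact ⟨_, ⟨lv_mem ht (m1 y (mem_closedBall_zero_iff.1 hy)), rfl⟩, rfl⟩
    · refine ContinuousOn.congr (f := fun y => e.f (lv (t * (2 - 2 * ‖y‖)) (‖y‖⁻¹ • y))) ?_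
        fun y hy => G2 y hy.2
      refine e.pf.1.comp (continuous_lv.comp_continuousOn
        (f := fun y : P => (t * (2 - 2 * ‖y‖), ‖y‖⁻¹ • y)) ?_) fun y hy => (m2 y hy.1 hy.2).1
      refine ContinuousOn.prodMk (by fun_prop) (ContinuousOn.smul
        (continuous_norm.continuousOn.inv₀ fun y hy => ?_) continuousOn_id)
      have : 1 / 2 ≤ ‖y‖ := hy.2
      linarith
  have mG : MapsTo G (cube 2) S := by
    intro y hy
    rcases le_total ‖y‖ (1 / 2) with k | k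
    · simp only [G, if_pos k]
      exact hES (φ.mf ⟨_, ⟨lv_mem ht (m1 y k), rfl⟩, rfl⟩)
    · rw [G2 y k]; exact hs ⟨_, m2 y hy k, rfl⟩
  have sub : e.f '' (cube 3 ∩ fl) ⊆ R := by rintro _ ⟨y, hy, rfl⟩; exact e.mf hy.1
  refine ⟨fun x => G (pr (e.g x)), cG.comp (continuous_pr.comp_continuousOn (e.pg.1.mono sub))
    fun x hx => pr_mem (e.mg (sub hx)), fun x hx => mG (pr_mem (e.mg (sub hx))), ?_⟩
  rintro _ ⟨y, hy, rfl⟩
  have h1 : ‖pr y‖ = 1 := by
    simpa [sph] using (mem_sph2.2 ⟨pr_mem hy.1.1, hy.1.2⟩ : pr y ∈ sph 2)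
  show G (pr (e.g (e.f y))) = e.f y
  rw [e.li y hy.1.1, G2 _ (by rw [h1]; norm_num), h1]
  norm_num
  rw [← (hy.2 : y 2 = 0), lv_pr]

/-- the surgery data of a move -/
theorem move_sg {U Γ A B R : Set V} (h : St U Γ A B) (e : PLEquiv (cube 3) R) {ε : ℝ}
    (hR : R ⊆ A) (hs : R ∩ (A ∩ B) = e.f '' side) (h0 : 0 < ε) (h1 : ε < 1)
    (h' : Spl U (A \ e.f '' lo ε) (B ∪ e.f '' lc ε)) :
    ∃ S0 : Set V, Sg Z2 S0 (e.f '' (side ∩ lc ε)) (e.f '' (cube 3 ∩ lev ε))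
        (e.f '' (cube 3 ∩ lev (-ε))) ∧ S0 ∪ e.f '' (side ∩ lc ε) = A ∩ B ∪ Γ ∧
      S0 ∪ e.f '' (cube 3 ∩ lev ε) ∪ e.f '' (cube 3 ∩ lev (-ε)) =
        (A \ e.f '' lo ε) ∩ (B ∪ e.f '' lc ε) ∪ Γ ∧
      St U Γ (A \ e.f '' lo ε) (B ∪ e.f '' lc ε) := by
  have a1 : |ε| ≤ 1 := by rw [abs_of_pos h0]; exact h1.le
  have a2 : |-ε| ≤ 1 := by rwa [abs_neg]
  have RU : R ⊆ U := hR.trans h.spl.subA
  have nΓ : ∀ y ∈ cube 3, e.f y ∉ Γ := fun y hy => disjoint_left.1 h.dj (RU (e.mf hy))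
  have mS : ∀ y ∈ cube 3, (e.f y ∈ A ∩ B ↔ y ∈ side) := fun y hy =>
    ⟨fun k => by
      obtain ⟨z, hz, q⟩ := hs.subset ⟨e.mf hy, k⟩
      exact e.injOn hz.1 hy q ▸ hz, fun k => (hs.superset ⟨y, k, rfl⟩).2⟩
  have mlo : ∀ y ∈ cube 3, (e.f y ∈ e.f '' lo ε ↔ |y 2| < ε) := fun y hy => mem_img e hy
  let S0 := (A ∩ B ∪ Γ) \ (U \ (A \ e.f '' lo ε))
  have m0 : ∀ y ∈ cube 3, (e.f y ∈ S0 ↔ y ∈ side ∧ ε ≤ |y 2|) := by
    intro y hy
    constructor
    · rintro ⟨k1, k2⟩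
      refine ⟨(mS y hy).1 (k1.resolve_right (nΓ y hy)), not_lt.1 fun q => k2 ⟨RU (e.mf hy), ?_⟩⟩
      exact fun r => r.2 ((mlo y hy).2 q)
    · rintro ⟨k1, k2⟩
      exact ⟨Or.inl ((mS y hy).2 k1), fun q => q.2 ⟨hR (e.mf hy), fun r => not_lt.2 k2 ((mlo y hy).1 r)⟩⟩
  have cS0 : IsCompact S0 := h.cpt.diff h'.clA
  have i1 : ∀ t, |t| = ε → S0 ∩ e.f '' (cube 3 ∩ lev t) = e.f '' (side ∩ lev t) := by
    intro t ht
    ext x
    constructor
    · rintro ⟨k, y, hy, rfl⟩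
      exact ⟨y, ⟨((m0 y hy.1).1 k).1, hy.2⟩, rfl⟩
    · rintro ⟨y, hy, rfl⟩
      exact ⟨(m0 y hy.1.1).2 ⟨hy.1, by rw [(hy.2 : y 2 = t), ht]⟩, y, ⟨hy.1.1, hy.2⟩, rfl⟩
  have e2 : S0 ∪ e.f '' (cube 3 ∩ lev ε) ∪ e.f '' (cube 3 ∩ lev (-ε)) =
      (A \ e.f '' lo ε) ∩ (B ∪ e.f '' lc ε) ∪ Γ := by
    have lv' : ∀ t, |t| = ε → e.f '' (cube 3 ∩ lev t) ⊆ (A \ e.f '' lo ε) ∩ (B ∪ e.f '' lc ε) := by
      rintro t ht _ ⟨y, hy, rfl⟩
      have q : |y 2| = ε := by rw [(hy.2 : y 2 = t), ht]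
      exact ⟨⟨hR (e.mf hy.1), fun r => ((mlo y hy.1).1 r).ne q⟩, Or.inr ⟨y, ⟨hy.1, q.le⟩, rfl⟩⟩
    ext x
    constructor
    · rintro ((⟨k1, k2⟩ | k) | k)
      · rcases k1 with k1 | k1
        · exact Or.inl ⟨not_not.1 fun q => k2 ⟨h.spl.subA k1.1, q⟩, Or.inl k1.2⟩
        · exact Or.inr k1
      · exact Or.inl (lv' ε (abs_of_pos h0) k)
      · exact Or.inl (lv' (-ε) (by rw [abs_neg, abs_of_pos h0]) k)
    · rintro (⟨k1, k2 | ⟨y, hy, rfl⟩⟩ | k)
      · exact Or.inl (Or.inl ⟨Or.inl ⟨k1.1, k2⟩, fun q => q.2 k1⟩)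
      · have q : |y 2| = ε := le_antisymm hy.2 (not_lt.1 fun r => k1.2 ((mlo y hy.1).2 r))
        rcases (abs_eq h0.le).1 q with q | q
        · exact Or.inl (Or.inr ⟨y, ⟨hy.1, q⟩, rfl⟩)
        · exact Or.inr ⟨y, ⟨hy.1, q⟩, rfl⟩
      · exact Or.inl (Or.inl ⟨Or.inr k, fun q => disjoint_left.1 h.dj q.1 k⟩)
  have cR : IsCompact R := e.image_eq ▸ (isCompact_closedBall _ _).image_of_continuousOn e.pf.1
  refine ⟨S0, ⟨cS0.isClosed, ?_, (isBall_lev e a1).isClosed, (isBall_lev e a2).isClosed, ?_, ?_,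
    (cvx_ball (isBall_lev e a1)).tr, (cvx_ball (isBall_lev e a2)).tr, ?_, ?_, conn_band e h1.le,
    (cvx_ball (isBall_lev e a1)).isPreconnected, (cvx_ball (isBall_lev e a2)).isPreconnected⟩,
    ?_, e2, h', h.dj, ?_, fun x hx W hW => ?_⟩
  · refine (IsCompact.image_of_continuousOn ?_ (e.pf.1.mono fun _ h => h.1.1)).isClosed
    refine (isCompact_closedBall (0 : V) 1).of_isClosed_subset ?_ fun _ h => h.1.1
    exact (isClosed_closedBall.inter
      ((isClosed_eq (f := fun y : V => |y 0|) (by fun_prop) continuous_const).union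
      (isClosed_eq (f := fun y : V => |y 1|) (by fun_prop) continuous_const))).inter
      (isClosed_closedBall.inter
        (isClosed_le (f := fun y : V => |y 2|) (by fun_prop) continuous_const))
  · rw [disjoint_left]
    rintro _ ⟨y, hy, rfl⟩ k
    have := (mem_img e hy.1).1 k
    have q : y 2 = ε := hy.2
    have q' : y 2 = -ε := this
    linarith
  · ext x
    constructor
    · rintro ⟨k, y, hy, rfl⟩
      have q : |y 2| = ε := le_antisymm hy.2.2 ((m0 y hy.1.1).1 k).2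
      rcases (abs_eq h0.le).1 q with q | q
      · exact ⟨k, Or.inl ⟨y, ⟨hy.1.1, q⟩, rfl⟩⟩
      · exact ⟨k, Or.inr ⟨y, ⟨hy.1.1, q⟩, rfl⟩⟩
    · rintro ⟨k, ⟨y, hy, rfl⟩ | ⟨y, hy, rfl⟩⟩
      · exact ⟨k, y, ⟨((m0 y hy.1).1 k).1, hy.1, by rw [(hy.2 : y 2 = ε), abs_of_pos h0]⟩, rfl⟩
      · exact ⟨k, y, ⟨((m0 y hy.1).1 k).1, hy.1,
          by rw [(hy.2 : y 2 = -ε), abs_neg, abs_of_pos h0]⟩, rfl⟩
  · rw [i1 ε (abs_of_pos h0)]; exact conn_lev e a1
  · rw [i1 (-ε) (by rw [abs_neg, abs_of_pos h0])]; exact conn_lev e a2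
  · ext x
    constructor
    · rintro (k | ⟨y, hy, rfl⟩)
      · exact k.1
      · exact Or.inl ((mS y hy.1.1).2 hy.1)
    · intro k
      by_cases q : x ∈ U \ (A \ e.f '' lo ε)
      · have k1 := k.resolve_right (disjoint_left.1 h.dj q.1)
        obtain ⟨y, hy, rfl⟩ : x ∈ e.f '' lo ε := not_not.1 fun r => q.2 ⟨k1.1, r⟩
        exact Or.inr ⟨y, ⟨(mS y hy.1).1 k1, hy.1, hy.2.le⟩, rfl⟩
      · exact Or.inl ⟨k, q⟩
  · rw [← e2]
    exact (cS0.union (isBall_lev e a1).isCompact).union (isBall_lev e a2).isCompact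
  · have hRc : Rᶜ ∈ 𝓝 x := cR.isClosed.isOpen_compl.mem_nhds fun q => disjoint_left.1 h.dj (RU q) hx
    have eq : ((A \ e.f '' lo ε) ∩ (B ∪ e.f '' lc ε) ∪ Γ) ∩ Rᶜ = (A ∩ B ∪ Γ) ∩ Rᶜ := by
      ext z
      have z1 : z ∈ e.f '' lo ε → z ∈ R := by rintro ⟨y, hy, rfl⟩; exact e.mf hy.1
      have z2 : z ∈ e.f '' lc ε → z ∈ R := by rintro ⟨y, hy, rfl⟩; exact e.mf hy.1
      simp only [mem_inter_iff, mem_union, Set.mem_sdiff, mem_compl_iff]
      tauto
    obtain ⟨D, G, k1, k2, k3, k4⟩ := h.bd x hx _ (inter_mem hW hRc)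
    refine ⟨D, G, k1, fun z hz => ⟨(eq.superset ⟨(k2 hz).1, (k2 hz).2.2⟩).1, (k2 hz).2.1⟩, ?_, k4⟩
    rwa [nhdsWithin_eq_nhdsWithin' hRc eq]

/-- the number of classes -/
noncomputable def nn (S : Set V) : ℕ := Nat.card (HH Z2 S)

theorem step (lt : LTStmt) (th : ThickStmt) (cp : CompStmt) (sp : SphStmt) {U Γ A B : Set V}
    (ess : ∀ x ∈ Γ, ∃ L ⊆ Γ, x ∈ L ∧ IsPreconnected L ∧ ∃ c : V → V → Z2, Coc (U ∪ Γ) c ∧ ¬ Tr L c)
    (h : St U Γ A B) {x : V} (p : Path x x) (hp : ∀ t, p t ∈ A ∩ B) (hA : NH A p)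
    (hn : ¬ NH (A ∩ B) p) : ∃ A' B', Move A B A' B' ∧ St U Γ A' B' ∧
      (nn (A' ∩ B' ∪ Γ) < nn (A ∩ B ∪ Γ) ∨ (nn (A' ∩ B' ∪ Γ) ≤ nn (A ∩ B ∪ Γ) ∧
        ∀ k, Fam Z2 (A ∩ B ∪ Γ) k → Fam Z2 (A' ∩ B' ∪ Γ) (k + 1))) := by
  obtain ⟨f, f1, f2, f3, f4⟩ := hA.square hp
  obtain ⟨D, G, hD, hDA, hG, hnull⟩ := lt A (A ∩ B) h.spl.mf f f1.continuousOn f2 f3 fun q => hn (f4 q)
  obtain ⟨R, e, r1, r2, r3, r4⟩ := th A (A ∩ B) D G U h.spl.mf hD hDA hG h.spl.isOpen
    (hDA.trans h.spl.subA)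
  have hR : R ⊆ A := fun z hz => (r1 hz).1
  obtain ⟨ε, h0, h1, h'⟩ := cp U A B R e h.spl hR r3 (by rw [r2]; exact r4)
  obtain ⟨S0, sg, e1, e2, st⟩ := move_sg h e hR r3 h0 h1 h'
  refine ⟨_, _, ⟨R, e, ε, hR, r3, h0, h1, rfl, rfl⟩, st, ?_⟩
  have fin : Finite (HH Z2 (S0 ∪ e.f '' (side ∩ lc ε))) := by
    rw [e1]; exact (Srf.lcv h.srf).finite h.cpt
  have a1 : |ε| ≤ 1 := by rw [abs_of_pos h0]; exact h1.le
  have a2 : |-ε| ≤ 1 := by rwa [abs_neg]
  have srf := st.srf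
  rw [← e2] at srf
  unfold nn
  rw [← e1, ← e2]
  rcases sg.lt_or with q | ⟨β, hβ, hne⟩
  · exact Or.inl q
  refine Or.inr ⟨sg.le, fun k hk => ?_⟩
  set D₁ := e.f '' (cube 3 ∩ lev ε)
  set D₂ := e.f '' (cube 3 ∩ lev (-ε))
  set S' := S0 ∪ D₁ ∪ D₂
  obtain ⟨x1, hx1⟩ := (isBall_lev e a1).nonempty
  obtain ⟨x2, hx2⟩ := (isBall_lev e a2).nonempty
  have s1 : D₁ ⊆ S' := fun _ hz => Or.inl (Or.inr hz)
  have s2 : D₂ ⊆ S' := subset_union_right
  have d1 := sg.q1.subset_connectedComponentIn hx1 s1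
  have d2 := sg.q2.subset_connectedComponentIn hx2 s2
  have dj : Disjoint (connectedComponentIn S' x1) (connectedComponentIn S' x2) := by
    rw [disjoint_left]
    intro z k1 k2
    refine hne x1 hx1 x2 hx2 ((hβ.mono (connectedComponentIn_subset _ _)).eq
      isPreconnected_connectedComponentIn (d1 hx1) ?_)
    rw [connectedComponentIn_eq k1, ← connectedComponentIn_eq k2]
    exact d2 hx2
  have GD : G = e.f '' (side ∩ fl) := by
    rw [← hG, ← r2]
    ext z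
    constructor
    · rintro ⟨⟨y, hy, rfl⟩, k⟩
      obtain ⟨w, hw, q⟩ := r3.subset ⟨e.mf hy.1, k⟩
      exact ⟨y, ⟨e.injOn hw.1 hy.1 q ▸ hw, hy.2⟩, rfl⟩
    · rintro ⟨y, hy, rfl⟩
      exact ⟨⟨y, ⟨hy.1.1, hy.2⟩, rfl⟩, (r3.superset ⟨y, hy.1, rfl⟩).2⟩
  have ntr : ∀ (t : ℝ) (ht : |t| ≤ 1) (C : Set V), Clop S' C → IsConnected C →
      e.f '' (cube 3 ∩ lev t) ⊆ C → C ⊆ S0 ∪ e.f '' (cube 3 ∩ lev t) → Ntr Z2 C := by
    intro t ht C hC hc hDC hCs
    by_contra hn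
    have tr : ∀ c : V → V → Z2, Coc C c → Tr C c := fun c hc => not_not.1 fun q => hn ⟨c, hc, q⟩
    have CΓ : Γ ∩ C = ∅ := by
      rw [eq_empty_iff_forall_notMem]
      rintro z ⟨k1, k2⟩
      obtain ⟨L, l1, l2, l3, c, hc, l4⟩ := ess z k1
      refine l4 ((tr c (hc.mono fun w hw => ?_)).mono
        (hC.subset l3 (fun w hw => srf.sub (l1 hw)) l2 k2))
      rcases e2.subset (hC.sub hw) with q | q
      exacts [Or.inl (h.spl.subA q.1.1), Or.inr q]
    have sC := Srf.clop srf hC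
    rw [CΓ] at sC
    obtain ⟨E, E1, E2, E3⟩ := Ann83.compl_disc (sp C sC hc (h1_of tr)) (isBall_lev e ht) hDC
    have sd : e.f '' side ⊆ A ∩ B := fun z hz => (r3.superset hz).2
    refine hnull (by
      rw [GD, ← r2]
      refine null_of_cap e ht E1 (fun z hz => ?_) sd
      have zC : z ∈ C := E2.subset (Or.inr hz)
      rcases hCs zC with q | q
      · exact (e1.subset (Or.inl q)).resolve_right fun r =>
          (eq_empty_iff_forall_notMem.1 CΓ z) ⟨r, zC⟩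
      · obtain ⟨y, hy, rfl⟩ := E3.subset ⟨q, hz⟩
        exact sd ⟨y, hy.1, rfl⟩)
  have lpc := (Srf.lcv srf).lpc
  refine sg.fam hk (lpc.clop x1) (lpc.clop x2)
    (ntr ε a1 _ (lpc.clop x1) (isConnected_connectedComponentIn_iff.2 (s1 hx1)) d1 fun z hz => ?_)
    (ntr (-ε) a2 _ (lpc.clop x2) (isConnected_connectedComponentIn_iff.2 (s2 hx2)) d2 fun z hz => ?_)
    isPreconnected_connectedComponentIn isPreconnected_connectedComponentIn d1 d2 dj
  · exact (connectedComponentIn_subset _ _ hz).resolve_right fun q => disjoint_left.1 dj hz (d2 q)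
  · rcases connectedComponentIn_subset _ _ hz with (q | q) | q
    · exact Or.inl q
    · exact (disjoint_left.1 dj (d1 q) hz).elim
    · exact Or.inr q

theorem Move.cpt {U A B A' B' : Set V} (hA : A ⊆ U) (h : Move A B A' B') :
    ∃ K, IsCompact K ∧ K ⊆ U ∧ ∀ x, x ∉ K → ((x ∈ A' ↔ x ∈ A) ∧ (x ∈ B' ↔ x ∈ B)) := by
  obtain ⟨R, e, ε, hR, -, -, -, rfl, rfl⟩ := h
  refine ⟨R, e.image_eq ▸ (isCompact_closedBall _ _).image_of_continuousOn e.pf.1, hR.trans hA,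
    fun x hx => ⟨and_iff_left ?_, or_iff_left ?_⟩⟩ <;>
  · rintro ⟨y, hy, rfl⟩; exact hx (e.mf hy.1)

/-- **(INC)** -/
theorem inc (lt : LTStmt) (th : ThickStmt) (cp : CompStmt) (sp : SphStmt) : IncStmt := by
  intro U Γ Q ess qA qB A0 B0 h0 q0
  let Q' : Set V → Set V → Prop := fun A B => St U Γ A B ∧ Q A B ∧ ∃ K, IsCompact K ∧ K ⊆ U ∧
    ∀ x, x ∉ K → ((x ∈ A ↔ x ∈ A0) ∧ (x ∈ B ↔ x ∈ B0))
  have mv : ∀ A B, Q' A B → (∀ x (p : Path x x), (∀ t, p t ∈ A ∩ B) → NH U p → NH (A ∩ B) p) ∨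
      ∃ A' B', Q' A' B' ∧ (nn (A' ∩ B' ∪ Γ) < nn (A ∩ B ∪ Γ) ∨
        (nn (A' ∩ B' ∪ Γ) ≤ nn (A ∩ B ∪ Γ) ∧
          ∀ k, Fam Z2 (A ∩ B ∪ Γ) k → Fam Z2 (A' ∩ B' ∪ Γ) (k + 1))) := by
    rintro A B ⟨h, q, K, k1, k2, k3⟩
    by_cases hA : ∀ x (p : Path x x), (∀ t, p t ∈ A ∩ B) → NH A p → NH (A ∩ B) p
    · by_cases hB : ∀ x (p : Path x x), (∀ t, p t ∈ A ∩ B) → NH B p → NH (A ∩ B) p
      · left
        intro x p hp hn
        exact two h.spl.relCl h.spl.symm.relCl (Mf.lcv h.spl.mf).lsc (Mf.lcv h.spl.symm.mf).lsc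
          h.spl.lcv.lpc hA hB p hp (by rwa [h.spl.union])
      · right
        push Not at hB
        obtain ⟨x, p, hp, h1, h2⟩ := hB
        rw [inter_comm] at hp h2
        obtain ⟨B', A', m, st, r⟩ := step lt th cp sp ess h.symm p hp h1 h2
        obtain ⟨K', j1, j2, j3⟩ := m.cpt h.spl.subB
        rw [inter_comm B, inter_comm B'] at r
        refine ⟨A', B', ⟨st.symm, qB A B A' B' h q m st.symm, K ∪ K', k1.union j1,
          union_subset k2 j2, fun x hx => ?_⟩, r⟩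
        have a := k3 x fun z => hx (Or.inl z)
        have b := j3 x fun z => hx (Or.inr z)
        exact ⟨b.2.trans a.1, b.1.trans a.2⟩
    · right
      push Not at hA
      obtain ⟨x, p, hp, h1, h2⟩ := hA
      obtain ⟨A', B', m, st, r⟩ := step lt th cp sp ess h p hp h1 h2
      obtain ⟨K', j1, j2, j3⟩ := m.cpt h.spl.subA
      refine ⟨A', B', ⟨st, qA A B A' B' h q m st, K ∪ K', k1.union j1,
        union_subset k2 j2, fun x hx => ?_⟩, r⟩
      have a := k3 x fun z => hx (Or.inl z)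
      have b := j3 x fun z => hx (Or.inr z)
      exact ⟨b.1.trans a.1, b.2.trans a.2⟩
  have main : ∀ n j k A B, Q' A B → nn (A ∩ B ∪ Γ) ≤ n → Fam Z2 (A ∩ B ∪ Γ) k → n < k + j →
      ∃ A' B', Q' A' B' ∧ ∀ x (p : Path x x), (∀ t, p t ∈ A' ∩ B') → NH U p → NH (A' ∩ B') p := by
    intro n
    induction n using Nat.strong_induction_on with
    | _ n ihn =>
      intro j
      induction j with
      | zero =>
        intro k A B h hn hk hj
        have := (Srf.lcv h.1.srf).finite (G := Z2) h.1.cpt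
        have := hk.le
        unfold nn at hn
        omega
      | succ j ihj =>
        intro k A B h hn hk hj
        rcases mv A B h with r | ⟨A', B', h', r | r⟩
        · exact ⟨A, B, h, r⟩
        · exact ihn _ (r.trans_le hn) (nn (A' ∩ B' ∪ Γ) + 1) 0 A' B' h' le_rfl (fam_zero _ _)
            (by omega)
        · exact ihj (k + 1) A' B' h' (r.1.trans hn) (r.2 k hk) (by omega)
  obtain ⟨A, B, ⟨h, q, K, k1, k2, k3⟩, r⟩ := main _ (nn (A0 ∩ B0 ∪ Γ) + 1) 0 A0 B0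
    ⟨h0, q0, ∅, isCompact_empty, empty_subset _, fun _ _ => ⟨Iff.rfl, Iff.rfl⟩⟩ le_rfl
    (fam_zero _ _) (by omega)
  exact ⟨A, B, K, h, q, k1, k2, k3, r⟩

end Crest.Agent.X212.Lev33
end

-- ▼ part X212/Lev33/Ann2
section

/-!
# Row 212, layer T, ANN (helper33), part 2: the first splitting of a collared block, labels
-/

set_option autoImplicit false

open Set Metric Topology Filter Crest.Agent.R096.Ce_537 Crest.Agent.X212.Prd34
  Crest.Agent.X212.Rg3
open Crest.Agent.R096.Cx_609 (isBall_of_injOn)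

namespace Crest.Agent.X212.Lev33

theorem Fl.map {A' B' A B N N' : Set V} {p : V} (h : Fl A' B' p) (e : PLEquiv N N')
    (hN : N ∈ 𝓝 p) (hN' : N' ∈ 𝓝 (e.f p)) (hA : ∀ q ∈ N, (e.f q ∈ A ↔ q ∈ A'))
    (hB : ∀ q ∈ N, (e.f q ∈ B ↔ q ∈ B')) : Fl A B (e.f p) := by
  obtain ⟨C, c, c0, hC, h1, h2⟩ := h.congr hN (A' := A' ∩ N) (B' := B' ∩ N)
    (fun y hy => and_iff_left hy) fun y hy => and_iff_left hy
  have CN : C ⊆ N := by
    intro z hz
    rcases le_total 0 (c.g z 2) with k | k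
    · exact (h1.superset ⟨_, ⟨c.mg hz, k⟩, c.ri z hz⟩).2.2
    · exact (h2.superset ⟨_, ⟨c.mg hz, k⟩, c.ri z hz⟩).2.2
  have key : ∀ {A A' T : Set V}, C ∩ (A' ∩ N) = c.f '' T → (∀ q ∈ N, (e.f q ∈ A ↔ q ∈ A')) →
      e.f '' C ∩ A = (fun y => e.f (c.f y)) '' T := by
    intro A A' T k1 k2
    rw [← image_image e.f c.f, ← k1]
    ext z
    constructor
    · rintro ⟨⟨q, hq, rfl⟩, k⟩
      exact ⟨q, ⟨hq, (k2 q (CN hq)).1 k, CN hq⟩, rfl⟩
    · rintro ⟨q, hq, rfl⟩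
      exact ⟨⟨q, hq.1, rfl⟩, (k2 q hq.2.2).2 hq.2.1⟩
  refine ⟨e.f '' C, c.trans (e.restrImage CN), by rw [← c0]; rfl, ?_, key h1 hA, key h2 hB⟩
  have hp := mem_of_mem_nhds hN
  have : e.g ⁻¹' C ∈ 𝓝 (e.f p) := e.pg.1.continuousAt hN' (by rw [e.li p hp]; exact hC)
  filter_upwards [this, hN'] with z k1 k2 using ⟨_, k1, e.ri z k2⟩

/-- primitives survive a move -/
theorem move_prim {G : Type*} [Group G] {U Γ A B A' B' : Set V} (h : St U Γ A B)
    (m : Move A B A' B') {κ : V → V → G} {a b : V → G} (ha : Prim (A ∪ Γ) κ a)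
    (hb : Prim (B ∪ Γ) κ b) : Prim (A' ∪ Γ) κ a ∧ ∃ b', Prim (B' ∪ Γ) κ b' ∧ EqOn b' b Γ := by
  classical
  obtain ⟨R, e, ε, hR, hs, h0, h1, rfl, rfl⟩ := m
  refine ⟨ha.mono (union_subset_union_left _ sdiff_subset), ?_⟩
  have sd : e.f '' (side ∩ lc ε) ⊆ A ∩ B := fun z ⟨y, hy, k⟩ => (hs.superset ⟨y, hy.1, k⟩).2
  have hA : e.f '' lc ε ⊆ A := by rintro _ ⟨y, hy, rfl⟩; exact hR (e.mf hy.1)
  obtain ⟨_, y0, hy0, rfl⟩ := (conn_lev e (t := 0) (by simp)).nonempty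
  have m0 : e.f y0 ∈ e.f '' (side ∩ lc ε) :=
    ⟨y0, ⟨hy0.1, hy0.1.1, by rw [(hy0.2 : y0 2 = 0), abs_zero]; exact h0.le⟩, rfl⟩
  have lc1 := (ha.mono fun z hz => Or.inl (sd hz).1).lco (hb.mono fun z hz => Or.inl (sd hz).2)
  let b' : V → G := fun x => if x ∈ e.f '' lc ε then b (e.f y0) * (a (e.f y0))⁻¹ * a x else b x
  have e1 : ∀ x ∈ B ∪ Γ, b' x = b x := by
    intro x hx
    simp only [b']
    split_ifs with k
    · have xB : x ∈ B := hx.resolve_right (disjoint_left.1 h.dj (h.spl.subA (hA k)))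
      obtain ⟨y, hy, rfl⟩ := k
      obtain ⟨z, hz, q⟩ := hs.subset ⟨e.mf hy.1, hR (e.mf hy.1), xB⟩
      have : b (e.f y0) * (a (e.f y0))⁻¹ = b (e.f y) * (a (e.f y))⁻¹ :=
        lc1.eq (conn_band e h1.le) m0 ⟨y, ⟨e.injOn hz.1 hy.1 q ▸ hz, hy⟩, rfl⟩
      rw [this]; group
    · rfl
  refine ⟨b', ?_, fun x hx => e1 x (Or.inr hx)⟩
  rw [union_right_comm]
  refine Prim.union (relCl_of_isOpen (hA.trans h.spl.subA) ?_) (IsClosed.relCl ?_ _)
    (hb.congr' e1) (((ha.mono fun z hz => Or.inl (hA hz)).mul_left _).congr' fun x hx => if_pos hx)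
  · convert h.spl.clB using 1
    ext z
    exact ⟨fun k => ⟨k.1, fun q => k.2 (Or.inl q)⟩,
      fun k => ⟨k.1, fun q => q.elim k.2 (disjoint_left.1 h.dj k.1)⟩⟩
  · refine (IsCompact.image_of_continuousOn ?_ (e.pf.1.mono fun _ h => h.1)).isClosed
    exact (isCompact_closedBall (0 : V) 1).inter_right
      (isClosed_le (f := fun y : V => |y 2|) (by fun_prop) continuous_const)

/-- the second coordinate -/
def co1 : Multiplicative V →* Multiplicative ℝ :=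
  AddMonoidHom.toMultiplicative (Pi.evalAddMonoidHom (fun _ => ℝ) 1)

/-- the second coordinate of the lattice cocycle -/
noncomputable def kap (H : V → V) (x y : V) : Multiplicative ℝ := co1 (latc H x y)

theorem lab_eq {H : V → V} {J : Finset (Fin 3)} (h : Per J H) {T : Set V}
    {b : V → Multiplicative ℝ} (hb : Prim T (kap H) b) {Y : Type*} [TopologicalSpace Y]
    {T' : Set Y} (hT' : IsPreconnected T') {g : Y → V} (hg : ContinuousOn g T')
    (hm : ∀ t ∈ T', H (g t) ∈ T) {s t : Y} (hs : s ∈ T') (ht : t ∈ T') :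
    (b (H (g s))).toAdd - (sec H (H (g s)) - g s) 1 =
      (b (H (g t))).toAdd - (sec H (H (g t)) - g t) 1 :=
  congrArg Multiplicative.toAdd ((((prim_of_lift h hg).map co1).lco
    (hb.comp (h.cont.comp_continuousOn hg) hm)).eq hT' hs ht)

/-- a collared block with an angle `θ` and a push `ρ` -/
structure Col2 (H : V → V) (W : Set V) (Φ : Fin 2 → V → V) (τ : V → ℝ) (r : V → V) (θ : V → ℝ)
    (ρ : V × ℝ → V) : Prop extends Col H W Φ τ r where
  θc : Continuous θ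
  θe : ∀ x, ∀ l ∈ lat {0, 1}, θ (x + l) = θ x + l 1
  θΦ : ∀ i, ∀ p ∈ Sl, θ (Φ i p) = p 1
  ρc : ContinuousOn ρ (W ×ˢ Icc 0 (1 / 2))
  ρi : ∀ z ∈ W, ∀ s, s ≤ τ z → ρ (z, s) = z
  ρΦ : ∀ i, ∀ p ∈ Sl, ∀ s, ρ (H (Φ i p), s) = H (Φ i ![p 0, p 1, min 1 (max (p 2) s)])

/-- the wave function -/
noncomputable def wf (H : V → V) (θ : V → ℝ) (z : V) : ℝ := tri (θ (sec H z))

/-- the open block -/
def Uo (W : Set V) (τ : V → ℝ) : Set V := W ∩ {z | 0 < τ z}

/-- the four boundary curves -/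
def Gm (W : Set V) (τ w : V → ℝ) : Set V := {z | z ∈ W ∧ τ z = 0 ∧ w z = 0}

/-- standard near the walls -/
def Std (W : Set V) (τ w : V → ℝ) (A B : Set V) (s : ℝ) : Prop :=
  ∀ z ∈ Uo W τ, τ z ≤ s → (z ∈ A ↔ 0 ≤ w z) ∧ (z ∈ B ↔ w z ≤ 0)

theorem Std.mem {W : Set V} {τ w : V → ℝ} {A B : Set V} {s : ℝ} (h : Std W τ w A B s)
    (hA : A ⊆ Uo W τ) {z : V} (hz : z ∈ W) (h0 : 0 ≤ τ z) (h1 : τ z ≤ s) :
    z ∈ A ∩ B ∪ Gm W τ w ↔ w z = 0 := by
  constructor
  · rintro (k | k)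
    · have := h z (hA k.1) h1
      exact le_antisymm (this.2.1 k.2) (this.1.1 k.1)
    · exact k.2.2
  · intro k
    rcases h0.eq_or_lt with q | q
    · exact Or.inr ⟨hz, q.symm, k⟩
    · have := h z ⟨hz, q⟩ h1
      exact Or.inl ⟨this.1.2 k.ge, this.2.2 k.le⟩

namespace Col2

variable {H : V → V} {W : Set V} {Φ : Fin 2 → V → V} {τ θ : V → ℝ} {r : V → V} {ρ : V × ℝ → V}
  (h : Col2 H W Φ τ r θ ρ)
include h

theorem θsec (x : V) : θ (sec H (H x)) = θ x + (sec H (H x) - x) 1 := by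
  rw [← h.θe x _ (sec_lat h.per x), add_sub_cancel]

theorem wH (x : V) : wf H θ (H x) = tri (θ x) := by
  obtain ⟨n, hn⟩ := lat1 (sec_lat h.per x)
  rw [wf, h.θsec, hn, tri_add_int]

theorem wΦ (i : Fin 2) {p : V} (hp : p ∈ Sl) : wf H θ (H (Φ i p)) = tri (p 1) := by
  rw [h.wH, h.θΦ i p hp]

theorem wc : ContinuousOn (wf H θ) W := by
  intro z hz
  obtain ⟨x, rfl⟩ := h.sub hz
  refine ContinuousAt.continuousWithinAt ?_
  rw [ContinuousAt, ← h.per.opn.map_nhds_eq h.per.cont.continuousAt, tendsto_map'_iff, h.wH]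
  exact ((continuous_tri.comp h.θc).tendsto x).congr fun y => (h.wH y).symm

theorem small {K : Set V} (hK : IsCompact K) (hU : K ⊆ Uo W τ) :
    ∃ s, 0 < s ∧ s ≤ 1 / 4 ∧ ∀ z ∈ K, s < τ z := by
  obtain ⟨a, ha, k⟩ := hK.exists_forall_le' (h.τc.mono fun _ hz => (hU hz).1) fun z hz => (hU hz).2
  exact ⟨min (a / 2) (1 / 4), by positivity, min_le_right _ _,
    fun z hz => (min_le_left _ _).trans_lt (by linarith [k z hz])⟩

theorem prim_floor (a : ℝ) {T : Set V} (hT : T ⊆ W)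
    (hn : ∀ z ∈ T, ∀ n : ℤ, θ (sec H z) + a ≠ n) :
    Prim T (kap H) fun z => Multiplicative.ofAdd (⌊θ (sec H z) + a⌋ : ℝ) := by
  intro x hx
  obtain ⟨h1, h2⟩ := lsec_tendsto h.per (h.sub (hT hx))
  have h3 : ∀ᶠ y in 𝓝 (sec H x), θ y + a ∈ Ioo (⌊θ (sec H x) + a⌋ : ℝ) (⌊θ (sec H x) + a⌋ + 1) :=
    (h.θc.add continuous_const).continuousAt (Ioo_mem_nhds
      (lt_of_le_of_ne (Int.floor_le _) (hn x hx _).symm) (Int.lt_floor_add_one _))
  filter_upwards [mem_nhdsWithin_of_mem_nhds (h1 h3), mem_nhdsWithin_of_mem_nhds h2] with y k1 k2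
  have e := h.θsec (lsec H x y)
  obtain ⟨n, hn⟩ := lat1 (sec_lat h.per (lsec H x y))
  rw [k2] at e hn
  show _ = Multiplicative.ofAdd ((⌊θ (sec H x) + a⌋ : ℝ) + (sec H y - lsec H x y) 1)
  rw [e, hn, add_right_comm, Int.floor_add_intCast,
    Int.floor_eq_iff.2 ⟨(mem_preimage.1 k1).1.le, (mem_preimage.1 k1).2⟩]
  push_cast; rfl

/-- **the first splitting** -/
theorem lev0 : ∃ A B, Spl (Uo W τ) A B ∧ Std W τ (wf H θ) A B (1 / 4) ∧
    (∀ x ∈ A, -(1 / 8) < wf H θ x) ∧ ∀ x ∈ B, wf H θ x < 1 / 8 := by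
  let m : ℝ → ℝ := fun s => max 0 (min 1 (4 * s - 1))
  have τU : ContinuousOn τ (Uo W τ) := h.τc.mono inter_subset_left
  have chart : ∀ x ∈ Uo W τ ∩ τ ⁻¹' Iio 1, ∃ i p, 0 < p 2 ∧ p 2 < 1 ∧ H (Φ i p) = x := by
    rintro x ⟨hx, h1⟩
    obtain ⟨i, p, hp, rfl⟩ := h.sur x hx.1 h1
    exact ⟨i, p, h.τΦ i p hp ▸ hx.2, h.τΦ i p hp ▸ h1, rfl⟩
  obtain ⟨A, B, K', t, sp, k1, k2, k3, k4, k5, k6⟩ := Lvf3.lev (Uo W τ) (Uo W τ ∩ τ ⁻¹' Iio 1)
    (Uo W τ ∩ τ ⁻¹' Ioi (1 / 2)) (W ∩ τ ⁻¹' Ici (3 / 4)) (wf H θ) (fun z => m (τ z)) (1 / 8) h.opn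
    (τU.isOpen_inter_preimage h.opn isOpen_Iio) inter_subset_left
    (τU.isOpen_inter_preimage h.opn isOpen_Ioi) inter_subset_left
    (h.cpt.of_isClosed_subset (h.τc.preimage_isClosed_of_isClosed h.cpt.isClosed isClosed_Ici)
      inter_subset_left)
    (fun z hz => by
      have : 3 / 4 ≤ τ z := hz.2
      exact ⟨⟨hz.1, show 0 < τ z by linarith⟩, show 1 / 2 < τ z by linarith⟩)
    (by norm_num) (h.wc.mono inter_subset_left)
    ((by fun_prop : Continuous m).comp_continuousOn τU)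
    (Lad50.locPL_of_nhds fun x hx => by
      obtain ⟨i, p, p0, p1, rfl⟩ := chart x hx
      have hp : p ∈ Sl := ⟨p0.le, p1.le⟩
      obtain ⟨δ, hδ, hb, e, he⟩ := h.inv i hp (N0 := (fun q : V => q 1) ⁻¹' ball (p 1) (1 / 2))
        ((continuous_apply 1).continuousAt (ball_mem_nhds _ (by norm_num)))
      refine ⟨_, h.nhds' i (inter_comm _ _ ▸ inter_mem_nhdsWithin Sl (closedBall_mem_nhds p hδ))
        p0 p1, ((pl_tri (p 1)).comp (Lad50.pl_apply e.pg 1) fun z hz => hb (e.mg hz).1).congr ?_⟩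
      rintro _ ⟨q, hq, rfl⟩
      have := e.li q hq
      rw [he] at this
      simp only [h.wΦ i hq.2, this])
    (fun x hx _ => by
      rcases lt_or_ge (τ x) 1 with k | k
      · exact Or.inl ⟨hx, k⟩
      · exact Or.inr ⟨hx.1, show 3 / 4 ≤ τ x by linarith⟩)
    (fun x hx => by
      have : 1 / 2 < τ x := hx.2
      simp only [m]
      rw [min_eq_left (by linarith), max_eq_right zero_le_one])
    (fun x _ => ⟨le_max_left _ _, max_le zero_le_one (min_le_left _ _)⟩)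
    (fun t ht x hx hw => by
      obtain ⟨i, p, p0, p1, rfl⟩ := chart x hx
      have hp : p ∈ Sl := ⟨p0.le, p1.le⟩
      obtain ⟨j, n, hn⟩ := tri_sol (p 1)
      simp only [h.wΦ i hp, h.τΦ i p hp] at hw
      have hm : |m (p 2)| ≤ 1 := by
        rw [abs_of_nonneg (le_max_left _ _)]; exact max_le zero_le_one (min_le_left _ _)
      have h4 : |p 1 - hf j - n| < 1 / 4 := by
        rw [hn, hw, abs_mul, abs_sg, abs_mul]
        nlinarith [abs_nonneg t, abs_nonneg (m (p 2))]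
      obtain ⟨δ, hδ, hb, e, he⟩ := h.inv i hp
        (N0 := {q : V | |q 1 - hf j - n| < 1 / 4} ∩ {q | 0 < q 2})
        (inter_mem ((isOpen_lt (by fun_prop) continuous_const).mem_nhds h4)
          ((isOpen_lt continuous_const (by fun_prop)).mem_nhds p0))
      have n1 : Sl ∈ 𝓝 p := (continuous_apply 2).continuousAt (Icc_mem_nhds p0 p1)
      let u : V → ℝ := fun q => sg j * (q 1 - hf j - n) - t * m (q 2)
      have u0 : u p = 0 := by
        simp only [u]; rw [hn, ← mul_assoc, sg_sq, one_mul, hw, sub_self]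
      have fl := Lvf3.fl_of_shear (u := u) (x := p) (d := ![0, sg j, 0]) one_pos
        (Lad50.pl_sub (Lad50.pl_mul _ (Lad50.pl_sub (Lad50.pl_sub (Lad50.pl_coord 1 _)
          (plOn_const _ _)) (plOn_const _ _))) (Lad50.pl_mul _ (Lad50.pl_max (plOn_const _ _)
            (Lad50.pl_min (plOn_const _ _) (Lad50.pl_sub (Lad50.pl_mul 4 (Lad50.pl_coord 2 _))
              (plOn_const _ _))))))
        (fun k => by
          have := abs_sg j
          rw [show sg j = 0 from congrFun k 1] at this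
          simp at this)
        (fun y s _ _ => by
          simp only [u, Pi.add_apply, Pi.smul_apply, smul_eq_mul, Matrix.cons_val]
          rw [mul_zero, add_zero]
          linear_combination s * sg_sq j)
      have key : ∀ q ∈ closedBall p δ ∩ Sl, e.f q ∈ Uo W τ ∧
          wf H θ (e.f q) - t * m (τ (e.f q)) = u q := fun q hq => by
        simp only [he, h.wΦ i hq.2, h.τΦ i q hq.2, tri_lin j n (hb hq.1).1.le, u, and_true]
        exact ⟨h.mem i q hq.2, show 0 < τ _ by rw [h.τΦ i q hq.2]; exact (hb hq.1).2⟩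
      have := fl.map e (A := {y | y ∈ Uo W τ ∧ t * m (τ y) ≤ wf H θ y})
        (B := {y | y ∈ Uo W τ ∧ wf H θ y ≤ t * m (τ y)}) (inter_mem (closedBall_mem_nhds p hδ) n1)
        (by
          rw [he]
          exact h.nhds' i (inter_comm _ _ ▸ inter_mem_nhdsWithin Sl (closedBall_mem_nhds p hδ))
            p0 p1)
        (fun q hq => by
          simp only [mem_ofPred_eq, (key q hq).1, true_and, u0, ← (key q hq).2, sub_nonneg])
        (fun q hq => by
          simp only [mem_ofPred_eq, (key q hq).1, true_and, u0, ← (key q hq).2, sub_nonpos])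
      rwa [he] at this)
  refine ⟨A, B, sp, fun z hz h1 => ?_, k5, k6⟩
  have := k4 z hz fun k => by
    have : 1 / 2 < τ z := (k2 k).2
    linarith
  simp only [m] at this
  rwa [max_eq_left ((min_le_right _ _).trans (by linarith)), mul_zero] at this

theorem st_of {A B : Set V} {s : ℝ} (hs : 0 < s) (sp : Spl (Uo W τ) A B)
    (sd : Std W τ (wf H θ) A B s) : St (Uo W τ) (Gm W τ (wf H θ)) A B := by
  have sW : A ∩ B ∪ Gm W τ (wf H θ) ⊆ W := fun z hz =>
    hz.elim (fun k => (sp.subA k.1).1) fun k => k.1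
  have key := fun z hz => sd.mem sp.subA (z := z) hz (h.τ0 hz)
  refine ⟨sp, disjoint_left.2 fun z k1 k2 => (ne_of_gt k1.2) k2.2.1,
    h.cpt.of_isClosed_subset ?_ sW, fun x hx W0 hW0 => ?_⟩
  · have c1 := h.τc.preimage_isClosed_of_isClosed h.cpt.isClosed (isClosed_Iic (a := s))
    have c2 := h.τc.preimage_isClosed_of_isClosed h.cpt.isClosed (isClosed_Ici (a := s))
    convert ((h.wc.mono inter_subset_left).preimage_isClosed_of_isClosed c1
      (isClosed_singleton (x := 0))).union (c2.sdiff (sp.clA.union sp.clB)) using 1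
    ext z
    constructor
    · intro k
      rcases le_total (τ z) s with q | q
      · exact Or.inl ⟨⟨sW k, q⟩, (key z (sW k) q).1 k⟩
      · have := k.resolve_right fun k => by linarith [k.2.1]
        exact Or.inr ⟨⟨sW k, q⟩, fun k => k.elim (fun k => k.2 this.1) fun k => k.2 this.2⟩
    · rintro (k | k)
      · exact (key z k.1.1 k.1.2).2 k.2
      · have zU : z ∈ Uo W τ := ⟨k.1.1, hs.trans_le k.1.2⟩
        exact Or.inl ⟨not_not.1 fun q => k.2 (Or.inl ⟨zU, q⟩), not_not.1 fun q => k.2 (Or.inr ⟨zU, q⟩)⟩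
  · obtain ⟨i, p, hp, rfl⟩ := h.sur x hx.1 (by rw [hx.2.1]; exact one_pos)
    have p2 : p 2 = 0 := h.τΦ i p hp ▸ hx.2.1
    have p1 : tri (p 1) = 0 := h.wΦ i hp ▸ hx.2.2
    obtain ⟨j, n, hn⟩ := tri_sol (p 1)
    rw [p1, mul_zero] at hn
    obtain ⟨N1, hN1, hs1⟩ := mem_nhdsWithin_iff_exists_mem_nhds_inter.1 (h.fc i p hp hW0)
    obtain ⟨δ, hδ, hb, e, he⟩ := h.inv i hp
      (N0 := N1 ∩ ({q : V | |q 1 - hf j - n| < 1 / 4} ∩ {q | q 2 < min s 1}))
      (inter_mem hN1 (inter_mem ((isOpen_lt (by fun_prop) continuous_const).mem_nhds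
        (by simp [hn])) ((isOpen_lt (by fun_prop) continuous_const).mem_nhds (by simp [p2, hs]))))
    let φ : P → V := fun y => ![p 0 + δ * y 0, p 1, δ / 2 * (y 1 + 1)]
    have mφ : MapsTo φ (cube 2) (closedBall p δ ∩ Sl) := by
      intro y hy
      have y0 := abs_le.1 (mem_cube.1 hy 0)
      have y1 := abs_le.1 (mem_cube.1 hy 1)
      have : φ y ∈ closedBall p δ := by
        rw [mem_closedBall, dist_pi_le_iff hδ.le]
        intro k
        rw [Real.dist_eq, abs_le]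
        fin_cases k <;> simp [φ, p2, hδ.le] <;> constructor <;> nlinarith
      exact ⟨this, show 0 ≤ δ / 2 * (y 1 + 1) by nlinarith,
        ((lt_min_iff.1 (hb this).2.2).2).le⟩
    have pφ : PLOn φ (cube 2) := Lad50.pl_vec3 (Lad50.pl_add (plOn_const _ _) (Lad50.pl_mul _
      (Lad50.pl_coord 0 _))) (plOn_const _ _) (Lad50.pl_mul _ (Lad50.pl_add (Lad50.pl_coord 1 _)
        (plOn_const _ _)))
    have iφ : Function.Injective φ := by
      intro y y' k
      have k0 : p 0 + δ * y 0 = p 0 + δ * y' 0 := congrFun k 0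
      have k2 : δ / 2 * (y 1 + 1) = δ / 2 * (y' 1 + 1) := congrFun k 2
      funext a; fin_cases a
      · exact mul_left_cancel₀ hδ.ne' (add_left_cancel k0)
      · exact add_right_cancel (mul_left_cancel₀ (half_pos hδ).ne' k2)
    refine ⟨_, _, isBall_of_injOn (e.pf.comp pφ mφ) fun y hy y' hy' k =>
      iφ (e.injOn (mφ hy) (mφ hy') k), ?_, ?_, ![0, -1], ?_, ?_⟩
    · rintro _ ⟨y, hy, rfl⟩
      have k := mφ hy
      simp only [he]
      refine ⟨(key _ (h.mem i _ k.2) ?_).2 ?_, hs1 ⟨(hb k.1).1, k.2⟩⟩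
      · rw [h.τΦ i _ k.2]; exact ((lt_min_iff.1 (hb k.1).2.2).1).le
      · rw [h.wΦ i k.2]; exact p1
    · filter_upwards [nhdsWithin_mono _ sW (h.nhds i (inter_comm _ _ ▸ inter_mem_nhdsWithin Sl
        (closedBall_mem_nhds p hδ) : closedBall p δ ∩ Sl ∈ _) hp (by rw [p2]; exact one_pos)),
        self_mem_nhdsWithin]
      rintro _ ⟨q, hq, rfl⟩ k
      have k1 := (key _ (h.mem i _ hq.2) (by
        rw [h.τΦ i _ hq.2]; exact ((lt_min_iff.1 (hb hq.1).2.2).1).le)).1 k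
      rw [h.wΦ i hq.2, tri_lin j n (hb hq.1).2.1.le] at k1
      have k2 : q 1 = p 1 := by
        have := congrArg (sg j * ·) k1
        simp only [← mul_assoc, sg_sq] at this
        linarith
      have d := (dist_pi_le_iff hδ.le).1 (mem_closedBall.1 hq.1)
      have d0 := abs_le.1 (Real.dist_eq _ _ ▸ d 0)
      have d2 := abs_le.1 (Real.dist_eq _ _ ▸ d 2)
      refine ⟨![(q 0 - p 0) / δ, 2 * q 2 / δ - 1], mem_cube.2 fun a => ?_, ?_⟩
      · fin_cases a <;> simp only [Fin.zero_eta, Fin.mk_one, Matrix.cons_val, abs_le]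
        · rw [le_div_iff₀ hδ, div_le_iff₀ hδ]; constructor <;> linarith
        · have := hq.2.1
          have k3 : 0 ≤ 2 * q 2 / δ := by positivity
          have k4 : 2 * q 2 / δ ≤ 2 := by rw [div_le_iff₀ hδ]; linarith
          constructor <;> linarith
      · simp only [he]
        congr 2
        funext a; fin_cases a <;> simp [φ, k2] <;> field_simp <;> ring
    · rw [mem_sph2, mem_cube]
      exact ⟨fun a => by fin_cases a <;> simp, Or.inr (by simp)⟩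
    · simp only [he]
      congr 2
      funext a; fin_cases a <;> simp [φ, p2]

end Col2

end Crest.Agent.X212.Lev33
end

-- ▼ part X212/Lev33/Ann3
section

/-!
# Row 212, layer T, ANN (helper33), part 3: the components of the compressed surface
-/

set_option autoImplicit false

open Set Metric Topology Filter Crest.Agent.R096.Ce_537 Crest.Agent.X212.Prd34
  Crest.Agent.X212.Rg3 Crest.Agent.X212.Srf12

namespace Crest.Agent.X212.Lev33

theorem hol_cyc {X G G' : Type*} [TopologicalSpace X] [CommGroup G] [CommGroup G'] {C : Set X}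
    {c : X → X → G} {k : X → X → G'} (hc : Coc C c) (hk : Coc C k)
    (inj : ∀ x (L : Path x x), (∀ t, L t ∈ C) → hol k L.extend = 1 → hol c L.extend = 1) {x y : X}
    (p : Path x x) (σ : Path y y) (hp : ∀ t, p t ∈ C) (hσ : ∀ t, σ t ∈ C) (j : JoinedIn C x y)
    (e : hol k p.extend = hol k σ.extend) : hol c p.extend = hol c σ.extend := by
  obtain ⟨q, hq⟩ := j
  have m1 : ∀ t, σ.symm t ∈ C := fun t => hσ _
  have m2 : ∀ t, q.symm t ∈ C := fun t => hq _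
  have := inj x (p.trans (q.trans (σ.symm.trans q.symm)))
    (trans_mem hp (trans_mem hq (trans_mem m1 m2))) (by
      rw [hol_trans hk hp (trans_mem hq (trans_mem m1 m2)), hol_trans hk hq (trans_mem m1 m2),
        hol_trans hk m1 m2, hol_symm hk hσ, hol_symm hk hq, e, mul_inv_cancel_comm_assoc,
        mul_inv_cancel])
  rwa [hol_trans hc hp (trans_mem hq (trans_mem m1 m2)), hol_trans hc hq (trans_mem m1 m2),
    hol_trans hc m1 m2, hol_symm hc hσ, hol_symm hc hq, mul_inv_cancel_comm_assoc,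
    mul_inv_eq_one] at this

theorem vec_sl {a b c : ℝ} (h0 : 0 ≤ c) (h1 : c ≤ 1) : (![a, b, c] : V) ∈ Sl := ⟨h0, h1⟩

/-- the data after compression -/
structure Dat (H : V → V) (W : Set V) (Φ : Fin 2 → V → V) (τ : V → ℝ) (r : V → V) (θ : V → ℝ)
    (ρ : V × ℝ → V) (A B : Set V) (s : ℝ) (a b : V → Multiplicative ℝ) : Prop
    extends Col2 H W Φ τ r θ ρ where
  st : St (Uo W τ) (Gm W τ (wf H θ)) A B
  s0 : 0 < s
  s1 : s ≤ 1 / 4
  sd : Std W τ (wf H θ) A B s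
  pa : Prim (A ∪ Gm W τ (wf H θ)) (kap H) a
  pb : Prim (B ∪ Gm W τ (wf H θ)) (kap H) b
  ea : ∀ z ∈ Gm W τ (wf H θ), a z = Multiplicative.ofAdd (⌊θ (sec H z) + 1 / 4⌋ : ℝ)
  eb : ∀ z ∈ Gm W τ (wf H θ), b z = Multiplicative.ofAdd (⌊θ (sec H z) + 3 / 4⌋ : ℝ)
  inc : ∀ x (p : Path x x), (∀ t, p t ∈ A ∩ B) → NH (Uo W τ) p → NH (A ∩ B) p

variable {H : V → V} {W : Set V} {Φ : Fin 2 → V → V} {τ θ : V → ℝ} {r : V → V} {ρ : V × ℝ → V}

namespace Col2

variable (h : Col2 H W Φ τ r θ ρ)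
include h

theorem shift (i : Fin 2) (x y : ℝ) {c : ℝ} (h0 : 0 ≤ c) (h1 : c ≤ 1) (m n : ℤ) :
    Φ i ![x + m, y + n, c] = Φ i ![x, y, c] + ![(m : ℝ), n, 0] := by
  rw [← h.eqv i _ (vec_sl h0 h1) _ (mem_lat m n)]
  congr 1
  funext k; fin_cases k <;> simp

theorem gm (i j : Fin 2) (x : ℝ) : H (Φ i ![x, hf j, 0]) ∈ Gm W τ (wf H θ) :=
  ⟨h.mem i _ (vec_sl le_rfl zero_le_one), h.τΦ i _ (vec_sl le_rfl zero_le_one),
    (h.wΦ i (vec_sl le_rfl zero_le_one)).trans (tri_hf j)⟩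

theorem mem_gm {z : V} (hz : z ∈ Gm W τ (wf H θ)) : ∃ i j x, H (Φ i ![x, hf j, 0]) = z := by
  obtain ⟨i, p, hp, rfl⟩ := h.sur z hz.1 (by rw [hz.2.1]; exact one_pos)
  have p2 : p 2 = 0 := h.τΦ i p hp ▸ hz.2.1
  have p1 : tri (p 1) = 0 := h.wΦ i hp ▸ hz.2.2
  obtain ⟨j, n, hn⟩ := tri_sol (p 1)
  rw [p1, mul_zero] at hn
  refine ⟨i, j, p 0, ?_⟩
  rw [← h.add i (vec_sl le_rfl zero_le_one) (mem_lat 0 n)]
  congr 2
  funext k; fin_cases k <;> simp [p2]
  linarith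

theorem cv (i : Fin 2) {c : ℝ} (h0 : 0 ≤ c) (h1 : c ≤ 1) {f g : ℝ → ℝ} (hf : Continuous f)
    (hg : Continuous g) : Continuous fun x => Φ i ![f x, g x, c] :=
  (h.cont i).comp_continuous (continuous_pi fun k => by fin_cases k <;> simp <;> fun_prop)
    fun _ => vec_sl h0 h1

theorem ρW {z : V} (hz : z ∈ W) {s : ℝ} (hs : s ≤ 1) : ρ (z, s) ∈ W ∧ s ≤ τ (ρ (z, s)) := by
  rcases le_or_gt s (τ z) with k | k
  · rw [h.ρi z hz s k]; exact ⟨hz, k⟩
  · obtain ⟨i, p, hp, rfl⟩ := h.sur z hz (k.trans_le hs)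
    have m : (![p 0, p 1, min 1 (max (p 2) s)] : V) ∈ Sl :=
      vec_sl (le_min zero_le_one (le_max_of_le_left hp.1)) (min_le_left _ _)
    rw [h.ρΦ i p hp, h.τΦ i _ m]
    exact ⟨h.mem i _ m, le_min hs (le_max_right _ _)⟩

theorem exists_dat (inc : IncStmt) : ∃ A B s a b, Dat H W Φ τ r θ ρ A B s a b := by
  obtain ⟨A0, B0, sp, sd, w1, w2⟩ := h.lev0
  obtain ⟨A, B, K, st, ⟨a, b, q1, q2, q3, q4⟩, k1, k2, k3, k4⟩ := inc (Uo W τ) (Gm W τ (wf H θ))
    (fun A B => ∃ a b, Prim (A ∪ Gm W τ (wf H θ)) (kap H) a ∧ Prim (B ∪ Gm W τ (wf H θ)) (kap H) b ∧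
      EqOn a (fun z => Multiplicative.ofAdd (⌊θ (sec H z) + 1 / 4⌋ : ℝ)) (Gm W τ (wf H θ)) ∧
      EqOn b (fun z => Multiplicative.ofAdd (⌊θ (sec H z) + 3 / 4⌋ : ℝ)) (Gm W τ (wf H θ)))
    (fun z hz => by
      obtain ⟨i, j, x, rfl⟩ := h.mem_gm hz
      have c := h.cv i le_rfl zero_le_one continuous_id (continuous_const (y := hf j))
      refine ⟨range fun x => H (Φ i ![x, hf j, 0]), by rintro _ ⟨y, rfl⟩; exact h.gm i j y,
        ⟨x, rfl⟩, isPreconnected_range (h.per.cont.comp c), _,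
        (coc_par h.per (i := 0) (by decide)).mono fun z hz =>
          h.sub (hz.elim (fun k => k.1) fun k => k.1), ?_⟩
      have e := h.shift i 0 (hf j) le_rfl zero_le_one 1 0
      simp only [Int.cast_one, zero_add, Int.cast_zero, add_zero] at e
      exact not_tr_par h.per (by decide) c (fun t => ⟨t, rfl⟩) (by
        simp only [id, e]
        exact (per_add h.per _ (by simpa using mem_lat 1 0)).symm) (by simp [e]))
    (fun A B A' B' st ⟨a, b, q1, q2, q3, q4⟩ m _ => by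
      obtain ⟨k1, b', k2, k3⟩ := move_prim st m q1 q2
      exact ⟨a, b', k1, k2, q3, k3.trans q4⟩)
    (fun A B A' B' st ⟨a, b, q1, q2, q3, q4⟩ m _ => by
      obtain ⟨k1, a', k2, k3⟩ := move_prim st.symm m q2 q1
      exact ⟨a', b, k2, k1, k3.trans q3, q4⟩)
    A0 B0 (h.st_of (by norm_num) sp sd) ⟨_, _,
      h.prim_floor _ (fun z hz => hz.elim (fun k => (sp.subA k).1) fun k => k.1) fun z hz n e => by
        have : wf H θ z = -(1 / 4) := by
          rw [wf, tri_lin 0 n (by rw [← e]; norm_num [hf]), ← e]; norm_num [hf, sg]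
        rcases hz with k | k
        · linarith [w1 z k]
        · linarith [k.2.2],
      h.prim_floor _ (fun z hz => hz.elim (fun k => (sp.subB k).1) fun k => k.1) fun z hz n e => by
        have : wf H θ z = 1 / 4 := by
          rw [wf, tri_lin 0 (n - 1) (by push_cast; rw [← e]; ring_nf; norm_num [hf])]
          push_cast; rw [← e]; norm_num [hf, sg]; ring
        rcases hz with k | k
        · linarith [w2 z k]
        · linarith [k.2.2], fun _ _ => rfl, fun _ _ => rfl⟩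
  obtain ⟨s, s0, s1, hs⟩ := h.small k1 k2
  refine ⟨A, B, s, a, b, h, st, s0, s1, fun z hz k => ?_, q1, q2, q3, q4, k4⟩
  have e := k3 z fun q => (hs z q).not_ge k
  rw [e.1, e.2]
  exact sd z hz (k.trans s1)

end Col2

namespace Dat

variable {A B : Set V} {s : ℝ} {a b : V → Multiplicative ℝ} (h : Dat H W Φ τ r θ ρ A B s a b)
include h

theorem sW : A ∩ B ∪ Gm W τ (wf H θ) ⊆ W := fun _ hz =>
  hz.elim (fun k => (h.st.spl.subA k.1).1) fun k => k.1

theorem lab (i j : Fin 2) (x : ℝ) (l : V) (hl : l ∈ lat {0, 1}) :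
    (a (H (Φ i ![x, hf j, 0] + l))).toAdd -
      (sec H (H (Φ i ![x, hf j, 0] + l)) - (Φ i ![x, hf j, 0] + l)) 1 = l 1 ∧
    (b (H (Φ i ![x, hf j, 0] + l))).toAdd - (a (H (Φ i ![x, hf j, 0] + l))).toAdd = (j : ℕ) := by
  have m : H (Φ i ![x, hf j, 0] + l) ∈ Gm W τ (wf H θ) := by
    rw [per_add h.per _ hl]; exact h.gm i j x
  obtain ⟨n, hn⟩ := lat1 (sec_lat h.per (Φ i ![x, hf j, 0] + l))
  obtain ⟨k, hk⟩ := lat1 hl
  have e : θ (sec H (H (Φ i ![x, hf j, 0] + l))) = hf j + (k + n : ℤ) := by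
    rw [h.θsec, h.θe _ _ hl, h.θΦ i _ (vec_sl le_rfl zero_le_one), hn, hk]
    push_cast; simp [add_assoc]
  have f1 : ⌊hf j + 1 / 4⌋ = 0 := by fin_cases j <;> norm_num [hf, Int.floor_eq_iff]
  have f2 : ⌊hf j + 3 / 4⌋ = (j : ℕ) := by fin_cases j <;> norm_num [hf, Int.floor_eq_iff]
  rw [h.ea _ m, h.eb _ m, e, hn, hk, add_right_comm (hf j) _ (1 / 4),
    add_right_comm (hf j) _ (3 / 4), Int.floor_add_intCast, Int.floor_add_intCast, f1, f2]
  simp

/-- the component of the curve `j` on the first wall -/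
def Cp (_ : Dat H W Φ τ r θ ρ A B s a b) (j : Fin 2) : Set V :=
  connectedComponentIn (A ∩ B ∪ Gm W τ (wf H θ)) (H (Φ 0 ![0, hf j, 0]))

theorem clop (j : Fin 2) : Clop (A ∩ B ∪ Gm W τ (wf H θ)) (h.Cp j) := (Srf.lcv h.st.srf).lpc.clop _

theorem conn (j : Fin 2) : IsConnected (h.Cp j) :=
  isConnected_connectedComponentIn_iff.2 (Or.inr (h.gm 0 j 0))

theorem base (j : Fin 2) : H (Φ 0 ![0, hf j, 0]) ∈ h.Cp j :=
  mem_connectedComponentIn (Or.inr (h.gm 0 j 0))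

theorem del (j : Fin 2) {z : V} (hz : z ∈ h.Cp j) : (b z).toAdd - (a z).toAdd = (j : ℕ) := by
  have := (h.lab 0 j 0 0 lat_zero).2
  rw [add_zero] at this
  rw [← this]
  exact congrArg Multiplicative.toAdd (((h.pa.mono fun z hz => ((h.clop j).sub hz).imp_left
    fun k => k.1).lco (h.pb.mono fun z hz => ((h.clop j).sub hz).imp_left fun k => k.2)).eq
      (h.conn j).2 hz (h.base j))

theorem vert (i j j' : Fin 2) {p : V} (hp : p ∈ Sl) (h2 : p 2 ≤ s) {n : ℤ} (h1 : p 1 = hf j + n) :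
    H (Φ i p) ∈ h.Cp j' ↔ H (Φ i ![0, hf j, 0]) ∈ h.Cp j' := by
  have cv : Convex ℝ (Sl ∩ ({q : V | q 2 ≤ s} ∩ {q | q 1 = hf j + n})) :=
    convex_Sl.inter ((convex_halfSpace_le (f := fun y : V => y 2)
      ⟨fun _ _ => rfl, fun _ _ => rfl⟩ s).inter
      (convex_hyperplane (f := fun y : V => y 1) ⟨fun _ _ => rfl, fun _ _ => rfl⟩ _))
  have pc := cv.isPreconnected.image _ ((h.fc i).mono inter_subset_left)
  have sb : (fun p => H (Φ i p)) '' (Sl ∩ ({q : V | q 2 ≤ s} ∩ {q | q 1 = hf j + n})) ⊆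
      A ∩ B ∪ Gm W τ (wf H θ) := by
    rintro _ ⟨q, hq, rfl⟩
    refine (h.sd.mem h.st.spl.subA (h.mem i q hq.1) (h.τ0 (h.mem i q hq.1))
      (by rw [h.τΦ i q hq.1]; exact hq.2.1)).2 ?_
    rw [h.wΦ i hq.1, (hq.2.2 : q 1 = _), tri_add_int, tri_hf]
  have m0 : H (Φ i ![0, hf j, 0]) ∈
      (fun p => H (Φ i p)) '' (Sl ∩ ({q : V | q 2 ≤ s} ∩ {q | q 1 = hf j + n})) :=
    ⟨![0, hf j, 0] + ![((0 : ℤ) : ℝ), n, 0], ⟨sl_add (vec_sl le_rfl zero_le_one) (mem_lat 0 n),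
      by simpa using h.s0.le, by simp⟩, h.add i (vec_sl le_rfl zero_le_one) (mem_lat 0 n)⟩
  exact ⟨fun k => (h.clop j').subset pc sb ⟨p, ⟨hp, h2, h1⟩, rfl⟩ k m0,
    fun k => (h.clop j').subset pc sb m0 k ⟨p, ⟨hp, h2, h1⟩, rfl⟩⟩

theorem memC (i j : Fin 2) {p : V} (hp : p ∈ Sl) (h2 : p 2 ≤ s) (hC : H (Φ i p) ∈ h.Cp j) :
    (∃ n : ℤ, p 1 = hf j + n) ∧ H (Φ i ![0, hf j, 0]) ∈ h.Cp j := by
  have k := (h.sd.mem h.st.spl.subA (h.mem i p hp) (h.τ0 (h.mem i p hp))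
    (by rw [h.τΦ i p hp]; exact h2)).1 ((h.clop j).sub hC)
  rw [h.wΦ i hp] at k
  obtain ⟨j', n, hn⟩ := tri_sol (p 1)
  rw [k, mul_zero] at hn
  have k1 := (h.vert i j' j hp h2 (n := n) (by linarith)).1 hC
  have k2 := (h.lab i j' 0 0 lat_zero).2
  rw [add_zero, h.del j k1] at k2
  obtain rfl : j = j' := Fin.ext (by exact_mod_cast k2)
  exact ⟨⟨n, by linarith⟩, k1⟩

theorem ρC (j : Fin 2) {z : V} (hz : z ∈ h.Cp j) {t : ℝ} (ht : t ≤ s) : ρ (z, t) ∈ h.Cp j := by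
  have zW := h.sW ((h.clop j).sub hz)
  rcases le_or_gt t (τ z) with k | k
  · rwa [h.ρi z zW t k]
  · obtain ⟨i, p, hp, rfl⟩ := h.sur z zW (by linarith [h.s1])
    rw [h.τΦ i p hp] at k
    obtain ⟨⟨n, hn⟩, k1⟩ := h.memC i j hp (by linarith) hz
    rw [h.ρΦ i p hp]
    exact (h.vert i j j (vec_sl (le_min zero_le_one (le_max_of_le_left hp.1)) (min_le_left _ _))
      ((min_le_right _ _).trans (max_le (by linarith) ht)) hn).2 k1

theorem ρAB (j : Fin 2) {z : V} (hz : z ∈ h.Cp j) : ρ (z, s) ∈ A ∩ B :=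
  ((h.clop j).sub (h.ρC j hz le_rfl)).resolve_right fun k => by
    linarith [(h.ρW (h.sW ((h.clop j).sub hz)) (s := s) (by linarith [h.s1])).2, k.2.1, h.s0]

theorem fcont : Continuous fun x => ρ (H (r x), s) :=
  h.ρc.comp_continuous ((h.per.cont.comp h.rc).prodMk continuous_const) fun x =>
    ⟨h.rm x, h.s0.le, by linarith [h.s1]⟩

theorem fU (x : V) : ρ (H (r x), s) ∈ Uo W τ :=
  have := h.ρW (h.rm x) (s := s) (by linarith [h.s1])
  ⟨this.1, h.s0.trans_le this.2⟩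

/-- **the component reaches the other wall** -/
theorem other (j : Fin 2) : H (Φ 1 ![0, hf j, 0]) ∈ h.Cp j := by
  classical
  by_contra hn
  have s1 : s ≤ 1 := by linarith [h.s1]
  have cl : Clop (A ∩ B) (h.Cp j ∩ (A ∩ B)) := ⟨inter_subset_right, fun x hx => by
    filter_upwards [((h.clop j).lc.mono subset_union_left) x hx, self_mem_nhdsWithin] with y k1 k2
    exact propext ⟨fun q => ⟨k1 ▸ q.1, hx⟩, fun q => ⟨k1 ▸ q.1, k2⟩⟩⟩
  let sd : V → Z2 := fun x => if x ∈ B then 1 else Multiplicative.ofAdd 1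
  have hχ := cross h.st.spl.union h.st.spl.clA h.st.spl.clB cl (sd := sd)
    (fun x hx => if_neg hx.2) fun x hx => if_pos hx
  set χ := fun x y => if x ∈ h.Cp j ∩ (A ∩ B) then (sd x)⁻¹ * sd y else 1
  obtain ⟨β, hβ⟩ := (hχ.comp (T := univ) h.fcont.continuousOn fun x _ => h.fU x).prim_convex
    convex_univ
  have l1 := mem_lat 0 1
  have p1 : Prim (H ⁻¹' W) (fun x y => χ (ρ (H x, s)) (ρ (H y, s))) β :=
    (hβ.mono (subset_univ _)).congr (geq_of_eq fun x hx y hy => by rw [h.ri x hx, h.ri y hy])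
  have p2 := p1.comp (T := H ⁻¹' W) (f := fun x => x + ![((0 : ℤ) : ℝ), (1 : ℤ), 0]) (by fun_prop)
    fun x hx => by show H _ ∈ W; rw [per_add h.per _ l1]; exact hx
  simp only [per_add h.per _ l1] at p2
  have pc : IsPreconnected (H ⁻¹' W) := by
    convert isPreconnected_range h.rc using 1
    exact Subset.antisymm (fun x hx => ⟨x, h.ri x hx⟩) (by rintro _ ⟨x, rfl⟩; exact h.rm x)
  have m := fun i t => h.mem i ![0, t, 0] (vec_sl le_rfl zero_le_one)
  have e := (p1.lco p2).eq pc (m 0 (hf j - 1 / 2)) (m 1 (hf j - 1 / 2))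
  have sh : ∀ i, Φ i ![0, hf j - 1 / 2, 0] + ![((0 : ℤ) : ℝ), (1 : ℤ), 0] =
      Φ i ![0, hf j + 1 / 2, 0] := fun i => by
    rw [← h.shift i _ _ le_rfl zero_le_one]
    congr 1
    funext k; fin_cases k <;> simp
    ring
  simp only [sh] at e
  have pr : ∀ i, Prim (Icc (hf j - 1 / 2) (hf j + 1 / 2))
      (fun t t' => χ (H (Φ i ![0, t, s])) (H (Φ i ![0, t', s]))) fun t => β (Φ i ![0, t, 0]) := by
    intro i
    have := p1.comp (T := Icc (hf j - 1 / 2) (hf j + 1 / 2))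
      (h.cv i le_rfl zero_le_one continuous_const continuous_id).continuousOn fun t _ => m i t
    simpa [h.ρΦ i _ (vec_sl le_rfl zero_le_one), h.s0.le, s1] using this
  have t0 : hf j - 1 / 2 ∈ Icc (hf j - 1 / 2) (hf j + 1 / 2) := ⟨le_rfl, by linarith⟩
  have t1 : hf j + 1 / 2 ∈ Icc (hf j - 1 / 2) (hf j + 1 / 2) := ⟨by linarith, le_rfl⟩
  have q1 : Prim (Icc (hf j - 1 / 2) (hf j + 1 / 2))
      (fun t t' => χ (H (Φ 1 ![0, t, s])) (H (Φ 1 ![0, t', s]))) fun _ => 1 := by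
    intro t _
    filter_upwards with t'
    simp only [χ]
    rw [if_neg fun k => hn (h.memC 1 j (vec_sl h.s0.le s1) le_rfl k.1).2, mul_one]
  let γ : ℝ → Z2 := fun t => if sg j * (t - hf j) ≤ 0 then 1 else Multiplicative.ofAdd 1
  have q0 : Prim (Icc (hf j - 1 / 2) (hf j + 1 / 2))
      (fun t t' => χ (H (Φ 0 ![0, t, s])) (H (Φ 0 ![0, t', s]))) γ := by
    intro t ht
    refine mem_nhdsWithin_of_mem_nhds ?_
    by_cases k : t = hf j
    · have es : ∀ t', |t' - hf j| < 1 / 4 → sd (H (Φ 0 ![0, t', s])) = γ t' := fun t' k' => by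
        have mm : (![0, t', s] : V) ∈ Sl := vec_sl h.s0.le s1
        have := (h.sd _ ⟨h.mem 0 _ mm, show 0 < τ _ by rw [h.τΦ 0 _ mm]; exact h.s0⟩
          (by rw [h.τΦ 0 _ mm]; exact le_rfl)).2
        rw [h.wΦ 0 mm, tri_lin j 0 (by simpa using k'.le)] at this
        simp only [sd, γ, this]
        simp
      have mC := h.ρC j (h.base j) le_rfl
      have mS := h.ρAB j (h.base j)
      rw [h.ρΦ 0 _ (vec_sl le_rfl zero_le_one)] at mC mS
      simp only [Matrix.cons_val, max_eq_right h.s0.le, min_eq_right s1] at mC mS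
      subst k
      filter_upwards [(isOpen_lt (f := fun t' => |t' - hf j|) (by fun_prop)
        continuous_const).mem_nhds (show |hf j - hf j| < 1 / 4 by simp)] with t' k'
      show γ t' = γ (hf j) * χ _ _
      simp only [χ]
      rw [if_pos ⟨mC, mS⟩, es t' k', es _ (by simp), mul_inv_cancel_left]
    · have nC : H (Φ 0 ![0, t, s]) ∉ h.Cp j ∩ (A ∩ B) := fun q => by
        obtain ⟨n, hn⟩ := (h.memC 0 j (vec_sl h.s0.le s1) le_rfl q.1).1
        have hn' : t = hf j + n := hn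
        have : |(n : ℝ)| < 1 := abs_lt.2 ⟨by linarith [ht.1], by linarith [ht.2]⟩
        obtain rfl : n = 0 := Int.abs_lt_one_iff.1 (by exact_mod_cast this)
        exact k (by simpa using hn')
      simp only [χ, if_neg nC, mul_one]
      have nz : sg j * (t - hf j) ≠ 0 := mul_ne_zero
        (fun q => by simpa [q] using sg_sq j) (sub_ne_zero.2 k)
      have c : Continuous fun t => sg j * (t - hf j) := by fun_prop
      rcases nz.lt_or_gt with q | q
      · filter_upwards [c.continuousAt (Iio_mem_nhds q)] with t' k'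
        simp only [γ]
        rw [if_pos q.le, if_pos (le_of_lt k')]
      · filter_upwards [c.continuousAt (Ioi_mem_nhds q)] with t' k'
        simp only [γ]
        rw [if_neg q.not_ge, if_neg (not_le.2 k')]
  have e1 := (q1.lco (pr 1)).eq isPreconnected_Icc t0 t1
  have e0 := (q0.lco (pr 0)).eq isPreconnected_Icc t0 t1
  simp only [inv_one, mul_one] at e1
  rw [← e1, mul_inv_cancel, mul_inv_eq_one] at e
  rw [e, mul_right_inj, inv_inj] at e0
  revert e0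
  fin_cases j <;> norm_num [γ, sg] <;> decide

end Dat

end Crest.Agent.X212.Lev33
end

-- ▼ part X212/Lev33/Ann4

/-!
# Row 212, layer T, ANN (helper33), part 4: the components are annuli
-/

set_option autoImplicit false

open Set Metric Topology Filter Crest.Agent.R096.Ce_537 Crest.Agent.X212.Prd34
  Crest.Agent.X212.Rg3 Crest.Agent.X212.Srf12 unitInterval

namespace Crest.Agent.X212.Lev33

theorem hol_lift {J : Finset (Fin 3)} {H : V → V} (h : Per J H) {x z w : V} (p : Path x x)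
    (q : Path z w) (hq : ∀ t, H (q t) = p t) :
    hol (latc H) p.extend = Multiplicative.ofAdd (z - w) := by
  have := hol_latc h (path_cont q) (by simpa using (hq 0).trans (by simpa using (hq 1).symm))
  simp only [Path.extend_zero, Path.extend_one] at this
  rw [← this]
  exact hol_congr (latc_coc h) (path_cont p) (path_maps fun t => ⟨_, hq t⟩) fun t ht => by
    simp only [Path.extend_apply _ ht, hq]

variable {H : V → V} {W : Set V} {Φ : Fin 2 → V → V} {τ θ : V → ℝ} {r : V → V} {ρ : V × ℝ → V}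

theorem Col2.loop (h : Col2 H W Φ τ r θ ρ) (i j : Fin 2) :
    Loop (range fun x => H (Φ i ![x, hf j, 0])) fun x => H (Φ i ![x, hf j, 0]) := by
  refine ⟨fun R => Lad50.plOn_of_locPL (Lad50.locPL_of_nhds (Ω := univ) fun x _ => ?_)
    isCompact_Icc (subset_univ _), rfl, fun x y => ⟨fun e => ?_, ?_⟩⟩
  · obtain ⟨δ, hδ, k⟩ := h.pl i ![x, hf j, 0] (vec_sl le_rfl zero_le_one)
    have p : PLOn (fun x : ℝ => (![x, hf j, 0] : V)) univ :=
      Lad50.pl_vec3 (plOn_id _) (plOn_const _ _) (plOn_const _ _)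
    exact ⟨_, (continuousOn_univ.1 p.1).continuousAt (ball_mem_nhds _ hδ),
      k.comp (p.mono (subset_univ _)) fun y hy => ⟨hy, vec_sl le_rfl zero_le_one⟩⟩
  · exact lat0 (h.fib i i _ (vec_sl le_rfl zero_le_one) _ (vec_sl le_rfl zero_le_one) e).2
  · rintro ⟨m, hm⟩
    have := h.shift i y (hf j) le_rfl zero_le_one m 0
    rw [Int.cast_zero, add_zero, ← hm, add_sub_cancel] at this
    rw [this, per_add h.per _ (by simpa [hm] using mem_lat m 0)]

namespace Dat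

variable {A B : Set V} {s : ℝ} {a b : V → Multiplicative ℝ} (h : Dat H W Φ τ r θ ρ A B s a b)
include h

theorem curve (i j : Fin 2) (x : ℝ) : H (Φ i ![x, hf j, 0]) ∈ h.Cp j := by
  refine (h.vert i j j (vec_sl le_rfl zero_le_one) h.s0.le (n := 0) (by simp)).2 ?_
  fin_cases i
  exacts [h.base j, h.other j]

theorem bdry (j : Fin 2) : Gm W τ (wf H θ) ∩ h.Cp j =
    (range fun x => H (Φ 0 ![x, hf j, 0])) ∪ range fun x => H (Φ 1 ![x, hf j, 0]) := by
  refine Subset.antisymm (fun z hz => ?_) ?_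
  · obtain ⟨i, j', x, rfl⟩ := h.mem_gm hz.1
    have k2 := (h.lab i j' x 0 lat_zero).2
    rw [add_zero, h.del j hz.2] at k2
    obtain rfl : j = j' := Fin.ext (by exact_mod_cast k2)
    fin_cases i
    exacts [Or.inl ⟨x, rfl⟩, Or.inr ⟨x, rfl⟩]
  · rintro _ (⟨x, rfl⟩ | ⟨x, rfl⟩) <;> exact ⟨h.gm _ j x, h.curve _ j x⟩

theorem CA (j : Fin 2) : h.Cp j ⊆ A ∪ Gm W τ (wf H θ) := fun _ hz =>
  ((h.clop j).sub hz).imp_left fun k => k.1

theorem h1rel (j : Fin 2) : H1Rel (h.Cp j) (range fun x => H (Φ 0 ![x, hf j, 0])) := by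
  classical
  have GC : (range fun x => H (Φ 0 ![x, hf j, 0])) ⊆ h.Cp j := by
    rintro _ ⟨x, rfl⟩; exact h.curve 0 j x
  have CW : h.Cp j ⊆ W := (h.clop j).sub.trans h.sW
  have CH := CW.trans h.sub
  refine h1rel_of GC fun c hc ⟨β, hβ⟩ => ?_
  have ht : ∀ (f : ℝ → ℝ), Continuous f → (∀ t ∈ Icc (0 : ℝ) 1, 0 ≤ f t ∧ f t ≤ s) →
      ∀ T ⊆ h.Cp j, (Tr T fun x y => c (ρ (x, f 0)) (ρ (y, f 0))) →
        Tr T fun x y => c (ρ (x, f 1)) (ρ (y, f 1)) := by
    rintro f hf hm T hT ⟨b0, h0⟩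
    exact hc.homotopy (H := fun q => ρ (q.1, f q.2)) (h.ρc.comp (by fun_prop) fun q hq =>
      ⟨CW (hT hq.1), (hm _ hq.2).1, by linarith [(hm _ hq.2).2, h.s1]⟩)
      (fun q hq => h.ρC j (hT hq.1) (hm _ hq.2).2) h0
  have g0 : ∀ T ⊆ h.Cp j, Geq T c fun x y => c (ρ (x, 0)) (ρ (y, 0)) := fun T hT =>
    geq_of_eq fun x hx y hy => by
      rw [h.ρi x (CW (hT hx)) 0 (h.τ0 (CW (hT hx))), h.ρi y (CW (hT hy)) 0 (h.τ0 (CW (hT hy)))]
  obtain ⟨β', hβ'⟩ := ht (fun t => t * s) (by fun_prop) (fun t k =>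
    ⟨mul_nonneg k.1 h.s0.le, by nlinarith [k.2, h.s0]⟩) _ GC
    (by simpa using Tr.congr ⟨β, hβ⟩ (g0 _ GC))
  simp only [one_mul] at hβ'
  refine Tr.congr ?_ (g0 _ Subset.rfl).symm
  have key := ht (fun t => (1 - t) * s) (by fun_prop) (fun t k =>
    ⟨mul_nonneg (by linarith [k.2]) h.s0.le, by nlinarith [k.1, h.s0]⟩) _ Subset.rfl
  simp only [sub_zero, one_mul, sub_self, zero_mul] at key
  have cρ : ContinuousOn (fun z => ρ (z, s)) (h.Cp j) :=
    h.ρc.comp (by fun_prop) fun z hz => ⟨CW hz, h.s0.le, by linarith [h.s1]⟩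
  have hc' := hc.comp cρ fun z hz => h.ρC j hz le_rfl
  have lpc := (h.clop j).lpc (Srf.lcv h.st.srf).lpc
  refine key (prim_of_hol lpc hc' fun x p hp => ?_)
  have hx : x ∈ h.Cp j := by simpa using hp 0
  obtain ⟨z, hz⟩ := CH hx
  obtain ⟨w, q, hq⟩ := lift_path h.per p (fun t => CH (hp t)) hz
  have hw : H w = x := by simpa using hq 1
  have l1 := lab_eq h.per h.pa (T' := (univ : Set I)) isPreconnected_univ q.continuous.continuousOn
    (fun t _ => by rw [hq]; exact h.CA j (hp t)) (s := 0) (t := 1) trivial trivial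
  simp only [Path.source, Path.target, hz, hw, Pi.sub_apply] at l1
  have hl := (h.per.fib w z).1 (hw.trans hz.symm)
  obtain ⟨m, hm⟩ := lat0 hl
  have e := h.shift 0 0 (hf j) le_rfl zero_le_one m 0
  simp only [zero_add, Int.cast_zero, add_zero] at e
  let q' : Path (Φ 0 ![0, hf j, 0]) (Φ 0 ![0, hf j, 0] + ![(m : ℝ), 0, 0]) :=
    ⟨⟨fun t => Φ 0 ![m * t, hf j, 0], (h.cv 0 le_rfl zero_le_one (f := fun t => m * t)
      (by fun_prop) continuous_const).comp continuous_subtype_val⟩, by simp, by simp [e]⟩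
  let κ : Path (H (Φ 0 ![0, hf j, 0])) (H (Φ 0 ![0, hf j, 0])) :=
    (q'.map h.per.cont).cast rfl (per_add h.per _ (by simpa using mem_lat m 0)).symm
  have hκ : ∀ t, κ t ∈ range fun x => H (Φ 0 ![x, hf j, 0]) := fun t => ⟨_, rfl⟩
  rw [hol_cyc hc' ((latc_coc h.per).mono CH) ?_ p κ hp (fun t => GC (hκ t))
    (lpc.joined (h.conn j).2 hx (h.base j)) ?_, hol_prim hβ' (path_cont κ) (path_maps hκ)]
  · simp
  · intro x L hL e
    obtain ⟨z, hz⟩ := CH (show x ∈ h.Cp j by simpa using hL 0)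
    obtain ⟨w, q, hq⟩ := lift_path h.per L (fun t => CH (hL t)) hz
    rw [hol_lift h.per L q hq] at e
    obtain rfl : z = w := sub_eq_zero.1 e
    have eq : ∀ t, (q.map h.fcont) t = ρ (L t, s) := fun t => by
      show ρ (H (r (q t)), s) = _
      rw [h.ri _ (by rw [hq]; exact CW (hL t)), hq]
    obtain ⟨F, -⟩ := convex_homotopy convex_univ q (Path.refl z) (fun _ => trivial) fun _ => trivial
    obtain ⟨F', hF'⟩ := h.inc _ (q.map h.fcont) (fun t => by rw [eq]; exact h.ρAB j (hL t))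
      ⟨F.map ⟨_, h.fcont⟩, fun t => h.fU _⟩
    have hd := ((h.clop j).ext hc).mono subset_union_left
    have k := hol_homotopy hd F' hF'
    rw [hol_refl hd (by simpa using hF' (1, 0))] at k
    have mC : ∀ t, (q.map h.fcont) t ∈ h.Cp j := fun t => by rw [eq]; exact h.ρC j (hL t) le_rfl
    rw [← hol_geq hc (geq_of_eq fun x hx y _ => (if_pos hx).symm) (path_cont _) (path_maps mC)] at k
    rw [← k, hol_comp]
    exact (hol_congr hc (path_cont _) (path_maps mC) fun t ht => by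
      simp only [Path.extend_apply _ ht, eq]).symm
  · rw [hol_lift h.per p q hq, hol_lift h.per κ q' fun _ => rfl]
    congr 1
    have l2 := lat2 hl
    rw [sub_add_cancel_left]
    funext k
    rw [Pi.sub_apply] at hm l2
    fin_cases k <;> simp <;> linarith

theorem ann (ar : AnnRec) (j : Fin 2) : ∃ α : P → V, ContinuousOn α strip ∧
    (∀ y ∈ strip, ∀ m : ℤ, α ![y 0 + m, y 1] = α y + ![(m : ℝ), 0, 0]) ∧
    (∀ x : ℝ, α ![x, 0] = Φ 0 ![x, hf j, 0] ∧ α ![x, 1] = Φ 1 ![x, hf j, 0]) ∧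
    (∀ y : P, 0 < y 1 → y 1 < 1 → H (α y) ∈ Uo W τ) ∧ LPL (fun y => H (α y)) strip ∧
    (∀ y ∈ strip, H (α y) ∈ h.Cp j) ∧ ∀ y ∈ strip, ∀ y' ∈ strip, H (α y) = H (α y') →
      (∃ m : ℤ, y 0 - y' 0 = m) ∧ y 1 = y' 1 := by
  have z1 := fun x => vec_sl (a := x) (b := hf j) le_rfl zero_le_one
  obtain ⟨g, an, g0, g1⟩ := ar (h.Cp j) _ _ _ _ (h.bdry j ▸ Srf.clop h.st.srf (h.clop j))
    (by
      rw [disjoint_left]
      rintro _ ⟨x, e⟩ ⟨y, e'⟩
      exact absurd (h.fib _ _ _ (z1 x) _ (z1 y) (e.trans e'.symm)).1 (by decide))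
    (h.conn j) (h.h1rel j) (h.loop 0 j) (h.loop 1 j)
  obtain ⟨ε, g1⟩ : ∃ ε : ℤ, ∀ x, g ![1, x] = H (Φ 1 ![ε * x, hf j, 0]) := by
    rcases g1 with k | k
    exacts [⟨1, by simpa using k⟩, ⟨-1, by simpa using k⟩]
  set T : Set P := {y | |y 0| ≤ 1} with hT
  have cT : Convex ℝ T := by
    have : T = (fun y : P => y 0) ⁻¹' Icc (-1) 1 := by ext y; simp [hT, abs_le]
    rw [this]
    exact (convex_Icc _ _).linear_preimage (LinearMap.proj (R := ℝ) (φ := fun _ : Fin 2 => ℝ) 0)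
  have cg : ContinuousOn g T := fun y hy => by
    refine ((an.pl (|y 1| + 1)).1 y ⟨hy, by linarith⟩).mono_of_mem_nhdsWithin ?_
    filter_upwards [self_mem_nhdsWithin, mem_nhdsWithin_of_mem_nhds
      ((isOpen_lt (f := fun z : P => |z 1|) (by fun_prop) continuous_const).mem_nhds
        (show |y 1| < |y 1| + 1 from lt_add_one _))] with z k1 k2 using ⟨k1, le_of_lt k2⟩
  have mg : ∀ y ∈ T, g y ∈ h.Cp j := fun y hy => an.img.subset ⟨y, hy, rfl⟩
  have t0 : ∀ x : ℝ, (![-1, x] : P) ∈ T := fun x => by simp [hT]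
  have t1 : ∀ x : ℝ, (![1, x] : P) ∈ T := fun x => by simp [hT]
  obtain ⟨G, G1, G2, G3⟩ := exists_lift_convex h.per cT cg
    (fun y hy => h.sub (h.sW ((h.clop j).sub (mg y hy)))) (t0 0) (g0 0).symm
  have cv : ∀ c : ℝ, Continuous fun x : ℝ => (![c, x] : P) := fun c =>
    continuous_pi fun k => by fin_cases k <;> simp <;> fun_prop
  have e0 : ∀ x, G ![-1, x] = Φ 0 ![x, hf j, 0] := fun x => by
    have := lift_uniq h.per (T := univ) isPreconnected_univ
      (G1.comp (cv (-1)).continuousOn fun x _ => t0 x)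
      (h.cv 0 le_rfl zero_le_one continuous_id continuous_const).continuousOn
      (fun t _ => (G2 _ (t0 t)).trans (g0 t)) (s := 0) (t := x) trivial trivial
    simp only [Function.comp, id, G3, sub_self] at this
    exact sub_eq_zero.1 this
  have ep : ∀ y ∈ T, ∀ m : ℤ, G ![y 0, y 1 + m] = G y + ![(m : ℝ), 0, 0] := fun y hy m => by
    have := lift_uniq h.per cT.isPreconnected (g := fun y => G ![y 0, y 1 + m])
      (G1.comp (Continuous.continuousOn (continuous_pi fun k => by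
        fin_cases k <;> simp <;> fun_prop)) fun y hy => hy) G1
      (fun t ht => by
        rw [G2 _ ht, G2 _ (show (![t 0, t 1 + m] : P) ∈ T from ht)]
        exact (an.fib ![t 0, t 1 + m] t ht ht).2 ⟨rfl, m, by simp⟩) (t0 0) hy
    have e := h.shift 0 0 (hf j) le_rfl zero_le_one m 0
    simp only [Matrix.cons_val, e0, Int.cast_zero, add_zero] at this e
    rw [e, add_sub_cancel_left] at this
    rw [← this, add_sub_cancel]
  have hl := (h.per.fib _ _).1 ((G2 _ (t1 0)).trans (g1 0))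
  set l := G ![1, 0] - Φ 1 ![ε * (0 : ℝ), hf j, 0] with hl'
  have e1 : ∀ x, G ![1, x] = Φ 1 ![ε * x, hf j, 0] + l := fun x => by
    have := lift_uniq h.per (T := univ) isPreconnected_univ
      (G1.comp (cv 1).continuousOn fun x _ => t1 x)
      (h.cv 1 le_rfl zero_le_one (f := fun x => ε * x) (by fun_prop) continuous_const).continuousOn
      (fun t _ => (G2 _ (t1 t)).trans (g1 t)) (s := 0) (t := x) trivial trivial
    simp only [Function.comp, ← hl'] at this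
    rw [← this, add_sub_cancel]
  obtain rfl : ε = 1 := by
    have k1 := ep _ (t1 0) 1
    have k2 := h.shift 1 0 (hf j) le_rfl zero_le_one ε 0
    simp only [Matrix.cons_val, e1, Int.cast_zero, add_zero, zero_add, Int.cast_one, mul_one,
      mul_zero] at k1 k2
    rw [k2, add_right_comm, add_right_inj] at k1
    have : (ε : ℝ) = 1 := congrFun k1 0
    exact_mod_cast this
  simp only [Int.cast_one, one_mul] at e1
  have l1 : l 1 = 0 := by
    have := lab_eq h.per h.pa cT.isPreconnected G1 (fun t ht => by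
      rw [G2 t ht]; exact h.CA j (mg t ht)) (t1 0) (t0 0)
    have k := (h.lab 0 j 0 0 lat_zero).1
    rw [add_zero] at k
    rwa [e0, e1, (h.lab 1 j 0 l hl).1, k] at this
  obtain ⟨m, hm⟩ := lat0 hl
  have el : l = ![(m : ℝ), 0, 0] := by
    funext k; fin_cases k
    exacts [hm, l1, lat2 hl]
  let ψ : P → P := fun y => ![2 * y 1 - 1, y 0 - m * y 1]
  have pψ : PLOn ψ univ := Lad50.pl_vec2 (Lad50.pl_sub (Lad50.pl_mul _ (Lad50.pl_coord 1 _))
    (plOn_const _ _)) (Lad50.pl_sub (Lad50.pl_coord 0 _) (Lad50.pl_mul _ (Lad50.pl_coord 1 _)))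
  have cψ := continuousOn_univ.1 pψ.1
  have mψ : ∀ y ∈ strip, ψ y ∈ T := fun y hy =>
    show |2 * y 1 - 1| ≤ 1 from abs_le.2 ⟨by linarith [hy.1], by linarith [hy.2]⟩
  refine ⟨fun y => G (ψ y), G1.comp cψ.continuousOn mψ, fun y hy n => ?_, fun x => ⟨?_, ?_⟩,
    fun y y0 y1 => ?_, fun y hy => ?_, fun y hy => ?_, fun y hy y' hy' e => ?_⟩
  · rw [← ep _ (mψ y hy) n]
    refine congrArg G ?_
    funext k; fin_cases k <;> simp [ψ]
    ring
  · simp [ψ, e0]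
  · have := h.shift 1 (x - m) (hf j) le_rfl zero_le_one m 0
    simp only [sub_add_cancel, Int.cast_zero, add_zero] at this
    rw [this, ← el, ← e1]
    norm_num [ψ]
  · have k := mψ y ⟨y0.le, y1.le⟩
    rw [G2 _ k]
    refine h.st.spl.subA (((h.clop j).sub (mg _ k)).resolve_right fun q => ?_).1
    rcases (h.bdry j).subset ⟨q, mg _ k⟩ with ⟨x, e⟩ | ⟨x, e⟩
    · have : (-1 : ℝ) = 2 * y 1 - 1 := ((an.fib _ _ (t0 x) k).1 ((g0 x).trans e)).1
      linarith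
    · have : (1 : ℝ) = 2 * y 1 - 1 := ((an.fib _ _ (t1 x) k).1 ((g1 x).trans (by simpa using e))).1
      linarith
  · obtain ⟨δ, hδ, k⟩ := Metric.mem_nhds_iff.1 (cψ.continuousAt (x := y)
      ((isOpen_lt (f := fun z : P => |z 1|) (by fun_prop) continuous_const).mem_nhds
        (show |ψ y 1| < |ψ y 1| + 1 from lt_add_one _)))
    exact ⟨δ, hδ, ((an.pl (|ψ y 1| + 1)).comp (pψ.mono (subset_univ _)) fun z hz =>
      ⟨mψ z hz.2, le_of_lt (k hz.1)⟩).congr fun z hz => G2 _ (mψ z hz.2)⟩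
  · beta_reduce
    rw [G2 _ (mψ y hy)]; exact mg _ (mψ y hy)
  · beta_reduce at e
    rw [G2 _ (mψ y hy), G2 _ (mψ y' hy')] at e
    obtain ⟨k1, n, k2⟩ := (an.fib _ _ (mψ y hy) (mψ y' hy')).1 e
    have k1' : 2 * y 1 - 1 = 2 * y' 1 - 1 := k1
    have k2' : y 0 - m * y 1 - (y' 0 - m * y' 1) = n := k2
    have k3 : y 1 = y' 1 := by linarith
    exact ⟨⟨n, by rw [k3] at k2'; linarith⟩, k3⟩

end Dat

/-- **two annuli in a collared block** -/
theorem Col.ann (h : Col H W Φ τ r) (inc : IncStmt) (ar : AnnRec) :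
    ∃ α : Fin 2 → P → V, ∀ j, ContinuousOn (α j) strip ∧
      (∀ y ∈ strip, ∀ m : ℤ, α j ![y 0 + m, y 1] = α j y + ![(m : ℝ), 0, 0]) ∧
      (∀ x : ℝ, α j ![x, 0] = Φ 0 ![x, hf j, 0] ∧ α j ![x, 1] = Φ 1 ![x, hf j, 0]) ∧
      (∀ y : P, 0 < y 1 → y 1 < 1 → H (α j y) ∈ Uo W τ) ∧ LPL (fun y => H (α j y)) strip ∧
      ∀ j', ∀ y ∈ strip, ∀ y' ∈ strip, H (α j y) = H (α j' y') →
        j = j' ∧ (∃ m : ℤ, y 0 - y' 0 = m) ∧ y 1 = y' 1 := by
  obtain ⟨θ, t1, t2, t3⟩ := h.exists_theta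
  obtain ⟨ρ, r1, r2, r3⟩ := h.exists_push
  obtain ⟨A, B, s, a, b, d⟩ := Col2.exists_dat ⟨h, t1, t2, t3, r1, r2, r3⟩ inc
  choose α k1 k2 k3 k4 k5 k6 k7 using d.ann ar
  refine ⟨α, fun j => ⟨k1 j, k2 j, k3 j, k4 j, k5 j, fun j' y hy y' hy' e => ?_⟩⟩
  have := d.del j (k6 j y hy)
  rw [e, d.del j' (k6 j' y' hy')] at this
  obtain rfl : j' = j := Fin.ext (by exact_mod_cast this)
  exact ⟨rfl, k7 _ y hy y' hy' e⟩

end Crest.Agent.X212.Lev33
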